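import Vale.Agent.N213X.Ev

/-!
The double delooping of the natural numbers: its Street nerve has cohomology in degree four and
is a retract of the nerve of `c (Δ[2] / ∂Δ[2])`.
-/

open CategoryTheory Limits Simplicial Opposite

namespace Vale.Agent.P213.X59

open SX

variable {n : ℕ∞}

/-- the double delooping of a commutative monoid -/
def B2 (hn : 2 ≤ n) (A : Type) [AddCommMonoid A] : NCat n where
  C := A
  d _ k x := if k < 2 then 0 else x
  cmp k x y := if k < 2 then x + y else x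
  fin x := ⟨2, if_neg (lt_irrefl 2)⟩
  dd a b j k x := by split_ifs <;> first | rfl | omega
  src k x y _ := by split_ifs <;> rfl
  tgt k x y h := by
    split_ifs at h ⊢
    · rfl
    · exact h
  dcomp a j k x y h _ := by split_ifs <;> first | rfl | omega | exact (add_zero _).symm
  idl k x := by
    split_ifs
    · exact zero_add x
    · rfl
  idr k x := by
    split_ifs
    · exact add_zero x
    · rfl
  asc k x y z _ _ := by
    split_ifs
    · exact add_assoc _ _ _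
    · rfl
  inter j k x y z w h _ _ _ := by
    split_ifs <;> first | rfl | omega | exact add_add_add_comm _ _ _ _
  dim k x hk := by
    have h : 2 ≤ k := by exact_mod_cast hn.trans hk
    exact if_neg (by omega)

variable (hn : 2 ≤ n)

/-- functoriality of the double delooping -/
def B2map {A A' : Type} [AddCommMonoid A] [AddCommMonoid A'] (f : A →+ A') :
    B2 hn A ⟶ B2 hn A' where
  toFun := f
  isFun := ⟨fun _ k (x : A) => by
      change f (if k < 2 then (0 : A) else x) = if k < 2 then 0 else f x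
      rw [apply_ite f, map_zero],
    fun k (x y : A) _ => by
      change f (if k < 2 then x + y else x) = if k < 2 then f x + f y else f x
      rw [apply_ite f, map_add]⟩

theorem simplex_pair {m : ℕ} {f g : O m → ℕ} (hf : IsSimplex (B2 hn ℕ) f)
    (hg : IsSimplex (B2 hn ℕ) g) : IsSimplex (B2 hn (ℕ × ℕ)) fun x => (f x, g x) := by
  refine ⟨fun a k x y h => ?_, fun k x y z w h1 h2 h3 => ?_⟩
  · have e1 : f y = if k < 2 then 0 else f x := hf.1 a k x y h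
    have e2 : g y = if k < 2 then 0 else g x := hg.1 a k x y h
    change (f y, g y) = if k < 2 then 0 else (f x, g x)
    rw [e1, e2]
    split_ifs <;> rfl
  · have e1 : f z = if k < 2 then f x + f y else f x := hf.2 k x y z w h1 h2 h3
    have e2 : g z = if k < 2 then g x + g y else g x := hg.2 k x y z w h1 h2 h3
    change (f z, g z) = if k < 2 then (f x, g x) + (f y, g y) else (f x, g x)
    rw [e1, e2]
    split_ifs <;> rfl

theorem simplex_iota : IsSimplex (B2 hn ℕ) fun x : O 2 => x.coef false Finset.univ := by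
  have hc : (Finset.univ : Finset (Fin 3)).card = 3 := by simp
  have ht : ∀ (x : O 2) a, x.coef a Finset.univ = x.coef false Finset.univ := fun x a => by
    have h := bd_self x a Finset.univ
    rw [hc] at h
    simpa using h
  refine ⟨fun a k x y h => ?_, fun k x y z w h1 h2 h3 => ?_⟩
  · have e := h false Finset.univ
    change y.coef false Finset.univ = if k < 2 then 0 else x.coef false Finset.univ
    rw [e, hc, ht x a]
    split_ifs <;> first | rfl | omega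
  · have e := h2 false Finset.univ
    have e' := h3 false Finset.univ
    change z.coef false Finset.univ = if k < 2 then x.coef false Finset.univ +
      y.coef false Finset.univ else x.coef false Finset.univ
    rw [hc] at e
    split_ifs at e ⊢ <;> omega

def u3 : O 3 := tab 3 [{0}, {0, 3}, {0, 2, 3}, {0, 1, 2}, {0, 1, 2, 3}]
  [{3}, {0, 1}, {1, 2}, {2, 3}, {1, 2, 3}, {0, 1, 3}, {0, 1, 2, 3}] (by decide +kernel)
def s3 : O 3 := tab 3 [{0}, {0, 3}, {0, 2, 3}, {0, 1, 2}]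
  [{3}, {0, 1}, {1, 2}, {2, 3}, {0, 2, 3}, {0, 1, 2}] (by decide +kernel)
def t3 : O 3 := tab 3 [{0}, {0, 3}, {1, 2, 3}, {0, 1, 3}]
  [{3}, {0, 1}, {1, 2}, {2, 3}, {1, 2, 3}, {0, 1, 3}] (by decide +kernel)
def a123 : O 3 := tab 3 [{1}, {1, 3}, {1, 2, 3}] [{3}, {1, 2}, {2, 3}, {1, 2, 3}] (by decide +kernel)
def a023 : O 3 := tab 3 [{0}, {0, 3}, {0, 2, 3}] [{3}, {0, 2}, {2, 3}, {0, 2, 3}] (by decide +kernel)
def a013 : O 3 := tab 3 [{0}, {0, 3}, {0, 1, 3}] [{3}, {0, 1}, {1, 3}, {0, 1, 3}] (by decide +kernel)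
def a012 : O 3 := tab 3 [{0}, {0, 2}, {0, 1, 2}] [{2}, {0, 1}, {1, 2}, {0, 1, 2}] (by decide +kernel)
def ys : O 3 := tab 3 [{0}, {0, 2}, {2, 3}, {0, 1, 2}] [{3}, {0, 1}, {1, 2}, {2, 3}, {0, 1, 2}] (by decide +kernel)
def yt : O 3 := tab 3 [{0}, {0, 1}, {1, 3}, {1, 2, 3}] [{3}, {0, 1}, {1, 2}, {2, 3}, {1, 2, 3}] (by decide +kernel)
def f23 : O 3 := tab 3 [{2}, {2, 3}] [{3}, {2, 3}] (by decide +kernel)
def f01 : O 3 := tab 3 [{0}, {0, 1}] [{1}, {0, 1}] (by decide +kernel)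
def p023 : O 3 := tab 3 [{0}, {0, 2}, {2, 3}] [{3}, {0, 2}, {2, 3}] (by decide +kernel)
def p013 : O 3 := tab 3 [{0}, {0, 1}, {1, 3}] [{3}, {0, 1}, {1, 3}] (by decide +kernel)
def x1 : O 3 := tab 3 [{1}] [{1}] (by decide +kernel)
def x2 : O 3 := tab 3 [{2}] [{2}] (by decide +kernel)

theorem simplex_three {f : O 3 → ℕ} (hf : IsSimplex (B2 hn ℕ) f) :
    f a023 + f a012 = f a013 + f a123 := by
  have h1 : f s3 = f u3 := hf.1 false 2 u3 s3 (by decide +kernel)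
  have h2 : f t3 = f u3 := hf.1 true 2 u3 t3 (by decide +kernel)
  have h3 : f s3 = f a023 + f ys := hf.cmp (k := 1) (w := p023) (by decide +kernel)
  have h4 : f t3 = f a013 + f yt := hf.cmp (k := 1) (w := p013) (by decide +kernel)
  have h5 : f ys = f a012 + f f23 := hf.cmp (k := 0) (w := x2) (by decide +kernel)
  have h6 : f yt = f f01 + f a123 := hf.cmp (k := 0) (w := x1) (by decide +kernel)
  have h7 : f f23 = 0 := hf.1 false 1 f23 f23 (by decide +kernel)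
  have h8 : f f01 = 0 := hf.1 false 1 f01 f01 (by decide +kernel)
  omega

variable {N : NCat n ⥤ SSet.{0}} (E : Ev N)


theorem smc {i j k : ℕ} (f : ⦋i⦌ ⟶ ⦋j⦌) (g : ⦋j⦌ ⟶ ⦋k⦌) :
    (SSet.stdSimplex.map (f ≫ g) : (Δ[i] : SSet.{0}) ⟶ Δ[k]) = SSet.stdSimplex.map f ≫ SSet.stdSimplex.map g := SSet.stdSimplex.map_comp f g

/-- the value of a simplex of the nerve of the double delooping on a cell -/
def val {m : ℕ} (s : Δ[m] ⟶ N.obj (B2 hn ℕ)) (x : O m) : ℕ := E.ev _ m s x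

theorem exists_add : ∃ add : ∀ {m : ℕ}, (Δ[m] ⟶ N.obj (B2 hn ℕ)) → (Δ[m] ⟶ N.obj (B2 hn ℕ)) → (Δ[m] ⟶ N.obj (B2 hn ℕ)),
    (∀ m (s s' : Δ[m] ⟶ N.obj (B2 hn ℕ)) x, val hn E (add s s') x = val hn E s x + val hn E s' x) ∧
    ∀ m k (θ : ⦋k⦌ ⟶ ⦋m⦌) s s', SSet.stdSimplex.map θ ≫ add s s' = add (SSet.stdSimplex.map θ ≫ s) (SSet.stdSimplex.map θ ≫ s') := by
  choose pr hpr using fun m (s s' : Δ[m] ⟶ N.obj (B2 hn ℕ)) =>
    E.surj _ m _ (simplex_pair hn (E.simp _ m s) (E.simp _ m s'))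
  have h1 : ∀ m s s', pr m s s' ≫ N.map (B2map hn (AddMonoidHom.fst ℕ ℕ)) = s :=
    fun m s s' => E.inj _ _ _ _ fun x => by rw [E.nat, hpr]; rfl
  have h2 : ∀ m s s', pr m s s' ≫ N.map (B2map hn (AddMonoidHom.snd ℕ ℕ)) = s' :=
    fun m s s' => E.inj _ _ _ _ fun x => by rw [E.nat, hpr]; rfl
  refine ⟨fun s s' => pr _ s s' ≫ N.map (B2map hn (AddMonoidHom.fst ℕ ℕ + AddMonoidHom.snd ℕ ℕ)),
    fun m s s' x => ?_, fun m k θ s s' => ?_⟩
  · unfold val
    rw [E.nat, hpr]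
    rfl
  · rw [← Category.assoc]
    congr 1
    refine E.inj _ _ _ _ fun x => ?_
    rw [hpr]
    have e1 := E.nat _ _ (B2map hn (AddMonoidHom.fst ℕ ℕ)) k (SSet.stdSimplex.map θ ≫ pr m s s') x
    have e2 := E.nat _ _ (B2map hn (AddMonoidHom.snd ℕ ℕ)) k (SSet.stdSimplex.map θ ≫ pr m s s') x
    rw [Category.assoc, h1] at e1
    rw [Category.assoc, h2] at e2
    exact Prod.ext e1.symm e2.symm

theorem val_one (s : Δ[1] ⟶ N.obj (B2 hn ℕ)) (x : O 1) : val hn E s x = 0 :=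
  (E.simp _ 1 s).1 false 1 x x (bd_self x)

theorem val_via_one {k : ℕ} (θ : ⦋k⦌ ⟶ ⦋1⦌) (s : Δ[1] ⟶ N.obj (B2 hn ℕ)) (x : O k) :
    val hn E (SSet.stdSimplex.map θ ≫ s) x = 0 := by
  have h : s = s ≫ N.map (B2map hn (0 : ℕ →+ ℕ)) := E.inj _ _ _ _ fun x => by
    rw [E.nat]
    exact val_one hn E s x
  rw [h, ← Category.assoc]
  unfold val
  rw [E.nat]
  rfl

theorem exists_iota : ∃ ι : Δ[2] ⟶ N.obj (B2 hn ℕ), val hn E ι top2 = 1 := by
  obtain ⟨ι, h⟩ := E.surj _ 2 _ (simplex_iota hn)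
  refine ⟨ι, ?_⟩
  unfold val
  rw [h]
  decide +kernel

/-- the fundamental cocycle -/
def aa (s : Δ[2] ⟶ N.obj (B2 hn ℕ)) : F2 := (val hn E s top2 : ℕ)

theorem aa_norm : NS (aa hn E) := by
  intro m g s hg
  obtain ⟨i, θ, rfl⟩ := SimplexCategory.eq_σ_comp_of_not_injective g hg
  unfold aa
  rw [smc, Category.assoc, val_via_one, Nat.cast_zero]

theorem aa_cocycle (s : Δ[3] ⟶ N.obj (B2 hn ℕ)) : aa hn E (SSet.stdSimplex.map (hm ![1, 2, 3] (by decide)) ≫ s) +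
    aa hn E (SSet.stdSimplex.map (hm ![0, 2, 3] (by decide)) ≫ s) + aa hn E (SSet.stdSimplex.map (hm ![0, 1, 3] (by decide)) ≫ s) +
    aa hn E (SSet.stdSimplex.map (hm ![0, 1, 2] (by decide)) ≫ s) = 0 := by
  have h : val hn E s a023 + val hn E s a012 = val hn E s a013 + val hn E s a123 :=
    simplex_three hn (E.simp _ 3 s)
  have hp : ∀ θ y, Push θ top2 y → val hn E (SSet.stdSimplex.map θ ≫ s) top2 = val hn E s y :=
    fun θ y h => E.push _ _ _ θ s top2 y h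
  unfold aa
  rw [hp _ a123 (by decide +kernel), hp _ a023 (by decide +kernel),
    hp _ a013 (by decide +kernel), hp _ a012 (by decide +kernel)]
  have h2 := congrArg (Nat.cast : ℕ → F2) h
  rw [Nat.cast_add, Nat.cast_add] at h2
  have h3 : ∀ a b c d : F2, b + d = c + a → a + b + c + d = 0 := by decide
  exact h3 _ _ _ _ h2

theorem sm_sm {K : SSet.{0}} {i j k : ℕ} {f : ⦋i⦌ ⟶ ⦋j⦌} {g : ⦋j⦌ ⟶ ⦋k⦌} (h : ⦋i⦌ ⟶ ⦋k⦌)
    (s : Δ[k] ⟶ K) (e : ∀ t : Fin (i + 1), (f ≫ g).toOrderHom t = h.toOrderHom t) :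
    SSet.stdSimplex.map f ≫ SSet.stdSimplex.map g ≫ s = SSet.stdSimplex.map h ≫ s := by
  rw [← Category.assoc, ← smc, hm_ext e]

/-- the cup square of the fundamental cocycle -/
def zz (s : Δ[4] ⟶ N.obj (B2 hn ℕ)) : F2 := aa hn E (SSet.stdSimplex.map (hm ![0, 1, 2] (by decide)) ≫ s) * aa hn E (SSet.stdSimplex.map (hm ![2, 3, 4] (by decide)) ≫ s)

theorem zz_norm : NS (zz hn E) := by
  intro m g s hg
  obtain ⟨i, θ, rfl⟩ := SimplexCategory.eq_σ_comp_of_not_injective g hg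
  have h : ∀ i : Fin 4,
      ¬Function.Injective (hm ![0, 1, 2] (by decide) ≫ SimplexCategory.σ i : ⦋2⦌ ⟶ ⦋3⦌).toOrderHom ∨
      ¬Function.Injective (hm ![2, 3, 4] (by decide) ≫ SimplexCategory.σ i : ⦋2⦌ ⟶ ⦋3⦌).toOrderHom := by
    decide +kernel
  unfold zz
  rw [smc, Category.assoc]
  rcases h i with h | h
  · rw [← Category.assoc (SSet.stdSimplex.map (hm ![0, 1, 2] (by decide))), ← smc, aa_norm hn E _ _ _ h, zero_mul]
  · rw [← Category.assoc (SSet.stdSimplex.map (hm ![2, 3, 4] (by decide))), ← smc, aa_norm hn E _ _ _ h, mul_zero]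

theorem zz_cocycle (s : Δ[5] ⟶ N.obj (B2 hn ℕ)) :
    ∑ q : Fin 6, zz hn E (SSet.stdSimplex.map (SimplexCategory.δ q) ≫ s) = 0 := by
  have h1 := aa_cocycle hn E (SSet.stdSimplex.map (hm ![0, 1, 2, 3] (by decide)) ≫ s)
  have h2 := aa_cocycle hn E (SSet.stdSimplex.map (hm ![2, 3, 4, 5] (by decide)) ≫ s)
  rw [sm_sm (hm ![1, 2, 3] (by decide)) _ (by decide), sm_sm (hm ![0, 2, 3] (by decide)) _ (by decide), sm_sm (hm ![0, 1, 3] (by decide)) _ (by decide),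
    sm_sm (hm ![0, 1, 2] (by decide)) _ (by decide)] at h1
  rw [sm_sm (hm ![3, 4, 5] (by decide)) _ (by decide), sm_sm (hm ![2, 4, 5] (by decide)) _ (by decide), sm_sm (hm ![2, 3, 5] (by decide)) _ (by decide),
    sm_sm (hm ![2, 3, 4] (by decide)) _ (by decide)] at h2
  rw [Fin.sum_univ_six]
  unfold zz
  rw [sm_sm (g := SimplexCategory.δ 0) (hm ![1, 2, 3] (by decide)) _ (by decide),
    sm_sm (g := SimplexCategory.δ 0) (hm ![3, 4, 5] (by decide)) _ (by decide),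
    sm_sm (g := SimplexCategory.δ 1) (hm ![0, 2, 3] (by decide)) _ (by decide),
    sm_sm (g := SimplexCategory.δ 1) (hm ![3, 4, 5] (by decide)) _ (by decide),
    sm_sm (g := SimplexCategory.δ 2) (hm ![0, 1, 3] (by decide)) _ (by decide),
    sm_sm (g := SimplexCategory.δ 2) (hm ![3, 4, 5] (by decide)) _ (by decide),
    sm_sm (g := SimplexCategory.δ 3) (hm ![0, 1, 2] (by decide)) _ (by decide),
    sm_sm (g := SimplexCategory.δ 3) (hm ![2, 4, 5] (by decide)) _ (by decide),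
    sm_sm (g := SimplexCategory.δ 4) (hm ![0, 1, 2] (by decide)) _ (by decide),
    sm_sm (g := SimplexCategory.δ 4) (hm ![2, 3, 5] (by decide)) _ (by decide),
    sm_sm (g := SimplexCategory.δ 5) (hm ![0, 1, 2] (by decide)) _ (by decide),
    sm_sm (g := SimplexCategory.δ 5) (hm ![2, 3, 4] (by decide)) _ (by decide)]
  have h3 : ∀ a b c d e f g h : F2, a + b + c + d = 0 → e + f + g + h = 0 →
      a * e + b * e + c * e + d * f + d * g + d * h = 0 := by decide +kernel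
  exact h3 _ _ _ _ _ _ _ _ h1 h2

include E in
theorem not_P_W : ¬P 3 (N.obj (B2 hn ℕ)) := by
  intro h
  obtain ⟨b, nb, hb⟩ := h.exists_smp (zz hn E) (zz_norm hn E) (zz_cocycle hn E)
  obtain ⟨add, ha, hnat⟩ := exists_add hn E
  obtain ⟨ι, hι⟩ := exists_iota hn E
  have hc : ∀ s s' : Δ[3] ⟶ N.obj (B2 hn ℕ), add s s' = add s' s := fun s s' =>
    E.inj _ _ _ _ fun x => (ha _ s s' x).trans ((add_comm _ _).trans (ha _ s' s x).symm)
  let V : (⦋3⦌ ⟶ ⦋2⦌) → (⦋3⦌ ⟶ ⦋2⦌) → F2 := fun θ θ' => b (add (SSet.stdSimplex.map θ ≫ ι) (SSet.stdSimplex.map θ' ≫ ι))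
  have V1 : ∀ θ θ', V θ θ' = V θ' θ := fun θ θ' => congrArg b (hc _ _)
  have V2 : ∀ θ θ' : ⦋3⦌ ⟶ ⦋2⦌, ¬Function.Surjective θ'.toOrderHom → V θ θ' = 0 := by
    intro θ θ' h'
    obtain ⟨i, θ'', rfl⟩ := SimplexCategory.eq_comp_δ_of_not_surjective θ' h'
    have e : add (SSet.stdSimplex.map θ ≫ ι) (SSet.stdSimplex.map (θ'' ≫ SimplexCategory.δ i) ≫ ι) = SSet.stdSimplex.map θ ≫ ι :=
      E.inj _ _ _ _ fun x => (ha _ _ _ x).trans (by
        rw [smc, Category.assoc, val_via_one, add_zero]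
        rfl)
    simp only [V]
    rw [e]
    refine nb _ _ _ fun h => ?_
    have h2 := Fintype.card_le_of_injective _ h
    simp at h2
  have V3 : ∀ θ θ' : ⦋3⦌ ⟶ ⦋2⦌, ¬Function.Surjective θ.toOrderHom → V θ θ' = 0 :=
    fun θ θ' h' => (V1 _ _).trans (V2 _ _ h')
  let α : (⦋2⦌ ⟶ ⦋2⦌) → F2 := fun g => aa hn E (SSet.stdSimplex.map g ≫ ι)
  have α0 : ∀ g : ⦋2⦌ ⟶ ⦋2⦌, ¬Function.Injective g.toOrderHom → α g = 0 :=
    fun g hg => aa_norm hn E _ _ _ hg
  have α1 : ∀ g : ⦋2⦌ ⟶ ⦋2⦌, (∀ t : Fin 3, g.toOrderHom t = t) → α g = 1 := fun g hg => by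
    have e : g = 𝟙 _ := hm_ext hg
    have e' : (SSet.stdSimplex.map (𝟙 ⦋2⦌) : (Δ[2] : SSet.{0}) ⟶ _) = 𝟙 _ := SSet.stdSimplex.map_id _
    simp only [α]
    rw [e, e', Category.id_comp, aa, hι, Nat.cast_one]
  have key : ∀ θ θ' : ⦋4⦌ ⟶ ⦋2⦌,
      ∑ q : Fin 5, V (SimplexCategory.δ q ≫ θ) (SimplexCategory.δ q ≫ θ') =
        (α (hm ![0, 1, 2] (by decide) ≫ θ) + α (hm ![0, 1, 2] (by decide) ≫ θ')) *
          (α (hm ![2, 3, 4] (by decide) ≫ θ) + α (hm ![2, 3, 4] (by decide) ≫ θ')) := by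
    intro θ θ'
    have h1 := hb (add (SSet.stdSimplex.map θ ≫ ι) (SSet.stdSimplex.map θ' ≫ ι))
    simp only [zz, aa, hnat, ha, Nat.cast_add] at h1
    simp only [V, α, aa, smc, Category.assoc]
    exact h1
  have eV : ∀ {θ θ' : ⦋3⦌ ⟶ ⦋2⦌} (η η' : ⦋3⦌ ⟶ ⦋2⦌),
      (∀ t : Fin 4, θ.toOrderHom t = η.toOrderHom t ∧ θ'.toOrderHom t = η'.toOrderHom t) →
      V θ θ' = V η η' := fun η η' h => by
    rw [hm_ext fun t => (h t).1, hm_ext fun t => (h t).2]
  have k1 := key (hm ![0, 1, 2, 2, 2] (by decide)) (hm ![0, 0, 0, 1, 2] (by decide))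
  have k2 := key (hm ![0, 1, 1, 2, 2] (by decide)) (hm ![0, 0, 1, 1, 2] (by decide))
  have k3 := key (hm ![0, 1, 1, 1, 2] (by decide)) (hm ![0, 0, 1, 2, 2] (by decide))
  rw [Fin.sum_univ_five] at k1 k2 k3
  rw [V3 (SimplexCategory.δ 0 ≫ _) _ (by decide), V3 (SimplexCategory.δ 1 ≫ _) _ (by decide),
    V2 _ (SimplexCategory.δ 3 ≫ _) (by decide), V2 _ (SimplexCategory.δ 4 ≫ _) (by decide),
    eV (θ := SimplexCategory.δ 2 ≫ _) (hm ![0, 1, 2, 2] (by decide)) (hm ![0, 0, 1, 2] (by decide)) (by decide),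
    α1 (hm ![0, 1, 2] (by decide) ≫ hm ![0, 1, 2, 2, 2] (by decide)) (by decide),
    α0 (hm ![0, 1, 2] (by decide) ≫ hm ![0, 0, 0, 1, 2] (by decide)) (by decide),
    α0 (hm ![2, 3, 4] (by decide) ≫ hm ![0, 1, 2, 2, 2] (by decide)) (by decide),
    α1 (hm ![2, 3, 4] (by decide) ≫ hm ![0, 0, 0, 1, 2] (by decide)) (by decide)] at k1
  rw [V3 (SimplexCategory.δ 0 ≫ _) _ (by decide), V2 _ (SimplexCategory.δ 4 ≫ _) (by decide),
    eV (θ := SimplexCategory.δ 1 ≫ _) (hm ![0, 1, 2, 2] (by decide)) (hm ![0, 1, 1, 2] (by decide)) (by decide),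
    eV (θ := SimplexCategory.δ 2 ≫ _) (hm ![0, 1, 2, 2] (by decide)) (hm ![0, 0, 1, 2] (by decide)) (by decide),
    eV (θ := SimplexCategory.δ 3 ≫ _) (hm ![0, 1, 1, 2] (by decide)) (hm ![0, 0, 1, 2] (by decide)) (by decide),
    α0 (hm ![0, 1, 2] (by decide) ≫ hm ![0, 1, 1, 2, 2] (by decide)) (by decide),
    α0 (hm ![0, 1, 2] (by decide) ≫ hm ![0, 0, 1, 1, 2] (by decide)) (by decide)] at k2
  rw [V3 (SimplexCategory.δ 0 ≫ _) _ (by decide), V2 _ (SimplexCategory.δ 2 ≫ _) (by decide),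
    V3 (SimplexCategory.δ 4 ≫ _) _ (by decide),
    eV (θ := SimplexCategory.δ 1 ≫ _) (hm ![0, 1, 1, 2] (by decide)) (hm ![0, 1, 2, 2] (by decide)) (by decide),
    eV (θ := SimplexCategory.δ 3 ≫ _) (hm ![0, 1, 1, 2] (by decide)) (hm ![0, 0, 1, 2] (by decide)) (by decide),
    α0 (hm ![0, 1, 2] (by decide) ≫ hm ![0, 1, 1, 1, 2] (by decide)) (by decide),
    α0 (hm ![0, 1, 2] (by decide) ≫ hm ![0, 0, 1, 2, 2] (by decide)) (by decide), V1 (hm ![0, 1, 1, 2] (by decide))] at k3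
  have fin : ∀ a b c x y : F2, 0 + 0 + a + 0 + 0 = (1 + 0) * (0 + 1) →
      0 + b + a + c + 0 = (0 + 0) * x → 0 + b + 0 + c + 0 = (0 + 0) * y → False := by decide
  exact fin _ _ _ _ _ k1 k2 k3

end Vale.Agent.P213.X59
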