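import Vale.Agent.P213.SX.Defs
import Mathlib.Data.Fin.Tuple.Sort
import Mathlib.Data.ZMod.Basic
import Mathlib.Algebra.CharP.Two
import Mathlib.Algebra.BigOperators.Fin

/-!
Normalized cochains with coefficients in `ZMod 2`: the vanishing of the cohomology in one degree
passes along weak homotopy equivalences.
-/

open CategoryTheory Simplicial Opposite SSet.modelCategoryQuillen

namespace Vale.Agent.P213.X59

abbrev F2 := ZMod 2

theorem F2.aa (x : F2) : x + x = 0 := CharTwo.add_self_eq_zero x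

section multi

variable {α : Type} [DecidableEq α]

/-- coboundary of a function on multisets -/
def D (F : Multiset α → F2) (M : Multiset α) : F2 := (M.map fun v => F (M.erase v)).sum

theorem D_cons (F : Multiset α → F2) (i : α) (M : Multiset α) :
    D F (i ::ₘ M) = F M + D (fun M' => F (i ::ₘ M')) M := by
  unfold D
  rw [Multiset.map_cons, Multiset.sum_cons, Multiset.erase_cons_head]
  congr 2
  refine Multiset.map_congr rfl fun v hv => ?_
  by_cases h : i = v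
  · subst h
    simp only [Multiset.erase_cons_head, Multiset.cons_erase hv]
  · rw [Multiset.erase_cons_tail _ h]

theorem D_add (F G : Multiset α → F2) (M : Multiset α) :
    D (fun M' => F M' + G M') M = D F M + D G M := by
  unfold D
  rw [Multiset.sum_map_add]

theorem D_congr {F G : Multiset α → F2} {M : Multiset α}
    (h : ∀ v ∈ M, F (M.erase v) = G (M.erase v)) : D F M = D G M := by
  unfold D
  rw [Multiset.map_congr rfl h]

theorem DD (F : Multiset α → F2) (M : Multiset α) : D (D F) M = 0 := by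
  induction M using Multiset.induction_on generalizing F with
  | empty => simp [D]
  | cons i M ih =>
    rw [D_cons]
    simp only [D_cons]
    rw [D_add, ih, add_zero, F2.aa]

/-- normalized functions -/
def Nrm (F : Multiset α → F2) : Prop := ∀ M, ¬M.Nodup → F M = 0

omit [DecidableEq α] in
theorem Nrm.cons {F : Multiset α → F2} (h : Nrm F) (i : α) (M : Multiset α) (hM : ¬M.Nodup) :
    F (i ::ₘ M) = 0 :=
  h _ fun h2 => hM (Multiset.nodup_cons.1 h2).2

theorem Nrm.D {F : Multiset α → F2} (h : Nrm F) : Nrm (D F) := by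
  intro M hM
  obtain ⟨a, ha⟩ : ∃ a, a ::ₘ a ::ₘ 0 ≤ M := by
    by_contra h2
    exact hM (Multiset.nodup_iff_le.2 fun a h3 => h2 ⟨a, h3⟩)
  obtain ⟨M', rfl⟩ := Multiset.le_iff_exists_add.1 ha
  rw [Multiset.cons_add, Multiset.cons_add, zero_add, D_cons, D_cons, ← add_assoc, F2.aa,
    zero_add]
  unfold X59.D
  refine Multiset.sum_eq_zero fun x hx => ?_
  obtain ⟨v, -, rfl⟩ := Multiset.mem_map.1 hx
  exact h _ fun h2 => (Multiset.nodup_cons.1 h2).1 (Multiset.mem_cons_self _ _)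

theorem cone (i : α) (L : Multiset α → Prop) (hL1 : ∀ M v, L M → L (M.erase v))
    (hL2 : ∀ M, L M → L (i ::ₘ M)) (j : ℕ) (z b : Multiset α → F2) (nz : Nrm z) (nb : Nrm b)
    (hz : ∀ M, M.card = j + 3 → D z M = 0)
    (hb : ∀ M, M.card = j + 2 → L M → D b M = z M) :
    ∃ B : Multiset α → F2, Nrm B ∧ (∀ M, M.card = j + 2 → D B M = z M) ∧
      ∀ M, M.card = j + 1 → L M → B M = b M := by
  classical
  let c : Multiset α → F2 := fun M => b M + z (i ::ₘ M)
  let e : Multiset α → F2 := fun M => if L M then c (i ::ₘ M) else 0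
  have nc : Nrm c := fun M hM => by
    simp only [c]
    rw [nb M hM, nz.cons i M hM, add_zero]
  have ne : Nrm e := fun M hM => by
    simp only [e]
    rw [nc.cons i M hM, ite_self]
  have key : ∀ M, M.card = j + 2 → D (fun M' => z (i ::ₘ M')) M = z M := fun M hM => by
    have h1 := hz (i ::ₘ M) (by rw [Multiset.card_cons, hM])
    rw [D_cons] at h1
    rw [← zero_add (D _ M), ← F2.aa (z M), add_assoc, h1, add_zero]
  refine ⟨fun M => z (i ::ₘ M) + D e M, fun M hM => ?_, fun M hM => ?_, fun M hM hL => ?_⟩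
  · simp only
    rw [nz.cons i M hM, ne.D M hM, add_zero]
  · rw [D_add, DD, add_zero, key M hM]
  · have h1 : D e M = D (fun M' => c (i ::ₘ M')) M :=
      D_congr fun v _ => by simp only [e]; rw [if_pos (hL1 M v hL)]
    have hM' : (i ::ₘ M).card = j + 2 := by rw [Multiset.card_cons, hM]
    have h2 : D c (i ::ₘ M) = 0 := by
      simp only [c]
      rw [D_add, key _ hM', hb _ hM' (hL2 M hL), F2.aa]
    rw [D_cons, ← h1] at h2
    have h3 : D e M = c M := by
      rw [← zero_add (D _ M), ← F2.aa (c M), add_assoc, h2, add_zero]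
    simp only
    rw [h3]
    simp only [c]
    rw [add_comm (b M), ← add_assoc, F2.aa, zero_add]

end multi

section simplex

variable {j : ℕ} {m : SimplexCategory}

/-- the multiset of vertices -/
def ms (g : ⦋j⦌ ⟶ m) : Multiset (Fin (m.len + 1)) :=
  (Finset.univ : Finset (Fin (j + 1))).val.map g.toOrderHom

theorem ms_card (g : ⦋j⦌ ⟶ m) : (ms g).card = j + 1 := by
  simp [ms]

theorem ms_inj {g g' : ⦋j⦌ ⟶ m} (h : ms g = ms g') : g = g' := by
  unfold ms at h
  rw [Fin.univ_val_map, Fin.univ_val_map, Multiset.coe_eq_coe] at h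
  have h1 := List.Perm.eq_of_pairwise' (r := (· ≤ ·))
    (List.pairwise_ofFn.2 fun _ _ hh => g.toOrderHom.monotone hh.le)
    (List.pairwise_ofFn.2 fun _ _ hh => g'.toOrderHom.monotone hh.le) h
  ext : 2
  exact List.ofFn_injective h1

theorem ms_surj (M : Multiset (Fin (m.len + 1))) (h : M.card = j + 1) :
    ∃ g : ⦋j⦌ ⟶ m, ms g = M := by
  obtain ⟨f, hf⟩ : ∃ f : Fin (j + 1) → Fin (m.len + 1), Finset.univ.val.map f = M := by
    induction M using Quotient.inductionOn with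
    | h l =>
      have hl : l.length = j + 1 := h
      refine ⟨fun t => l.get (t.cast hl.symm), ?_⟩
      rw [Fin.univ_val_map]
      congr 1
      apply List.ext_get
      · rw [List.length_ofFn, hl]
      · intro n h1 h2
        rw [List.get_ofFn]
        rfl
  refine ⟨SimplexCategory.Hom.mk ⟨f ∘ Tuple.sort f, Tuple.monotone_sort f⟩, ?_⟩
  rw [← hf]
  change Finset.univ.val.map (f ∘ Tuple.sort f) = _
  rw [← Multiset.map_map, Multiset.map_univ_val_equiv]

theorem ms_δ (g : ⦋j + 1⦌ ⟶ m) (q : Fin (j + 2)) :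
    ms (SimplexCategory.δ q ≫ g) = (ms g).erase (g.toOrderHom q) := by
  have h : ms g = g.toOrderHom q ::ₘ ms (SimplexCategory.δ q ≫ g) := by
    unfold ms
    rw [Fin.univ_succAbove _ q, Finset.cons_val, Multiset.map_cons, Finset.map_val,
      Multiset.map_map]
    rfl
  rw [h, Multiset.erase_cons_head]

theorem ms_nodup (g : ⦋j⦌ ⟶ m) : (ms g).Nodup ↔ Function.Injective g.toOrderHom := by
  unfold ms
  rw [Multiset.nodup_map_iff_inj_on Finset.univ.nodup]
  exact ⟨fun h a b hab => h a (Finset.mem_univ a) b (Finset.mem_univ b) hab,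
    fun h a _ b _ hab => h hab⟩

theorem mem_ms (g : ⦋j⦌ ⟶ m) (k : Fin (m.len + 1)) : k ∈ ms g ↔ ∃ t, g.toOrderHom t = k := by
  unfold ms
  rw [Multiset.mem_map]
  exact ⟨fun ⟨t, _, h⟩ => ⟨t, h⟩, fun ⟨t, h⟩ => ⟨t, Finset.mem_univ t, h⟩⟩

theorem D_ms (B : Multiset (Fin (m.len + 1)) → F2) (g : ⦋j + 1⦌ ⟶ m) :
    D B (ms g) = ∑ q : Fin (j + 2), B (ms (SimplexCategory.δ q ≫ g)) := by
  simp only [ms_δ]
  unfold D
  conv_lhs => rw [ms, Multiset.map_map]
  rfl

open Classical in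
/-- a cochain as a function on multisets -/
noncomputable def tl (F : (⦋j⦌ ⟶ m) → F2) (M : Multiset (Fin (m.len + 1))) : F2 :=
  if h : ∃ g : ⦋j⦌ ⟶ m, ms g = M then F h.choose else 0

theorem tl_ms (F : (⦋j⦌ ⟶ m) → F2) (g : ⦋j⦌ ⟶ m) : tl F (ms g) = F g := by
  have h : ∃ g' : ⦋j⦌ ⟶ m, ms g' = ms g := ⟨g, rfl⟩
  rw [tl, dif_pos h, ms_inj h.choose_spec]

/-- normalized cochains of a simplex -/
def Nm (F : (⦋j⦌ ⟶ m) → F2) : Prop := ∀ g, ¬Function.Injective g.toOrderHom → F g = 0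

theorem Nm.tl {F : (⦋j⦌ ⟶ m) → F2} (h : Nm F) : Nrm (tl F) := by
  intro M hM
  by_cases h1 : ∃ g : ⦋j⦌ ⟶ m, ms g = M
  · obtain ⟨g, rfl⟩ := h1
    rw [tl_ms]
    exact h g fun h2 => hM ((ms_nodup g).2 h2)
  · rw [X59.tl, dif_neg h1]

theorem D_tl (F : (⦋j⦌ ⟶ m) → F2) (g : ⦋j + 1⦌ ⟶ m) :
    D (tl F) (ms g) = ∑ q : Fin (j + 2), F (SimplexCategory.δ q ≫ g) := by
  simp only [D_ms, tl_ms]

theorem Nm.comp {m' : SimplexCategory} {F : (⦋j⦌ ⟶ m) → F2} (h : Nm F) (f : m' ⟶ m) :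
    Nm fun g : ⦋j⦌ ⟶ m' => F (g ≫ f) :=
  fun _ hg => h _ fun h2 => hg (Function.Injective.of_comp (f := f.toOrderHom) h2)

theorem exists_retr (g : ⦋j⦌ ⟶ m) (hg : ¬Function.Injective g.toOrderHom) :
    ∃ r : ⦋j⦌ ⟶ ⦋j⦌, ¬Function.Injective r.toOrderHom ∧ r ≫ g = g := by
  obtain _ | j := j
  · exact (hg fun a b _ => Subsingleton.elim (α := Fin 1) a b).elim
  · obtain ⟨i, θ, rfl⟩ := SimplexCategory.eq_σ_comp_of_not_injective g hg
    refine ⟨SimplexCategory.σ i ≫ SimplexCategory.δ i.castSucc, fun h => ?_, ?_⟩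
    · have h1 : Function.Injective (SimplexCategory.σ i).toOrderHom :=
        Function.Injective.of_comp (f := (SimplexCategory.δ i.castSucc).toOrderHom) h
      have h2 := Fintype.card_le_of_injective _ h1
      simp at h2
    · rw [Category.assoc, SimplexCategory.δ_comp_σ_self_assoc]

end simplex

/-- normalized `j`-cochains -/
def CC (j : ℕ) : SSet.{0} where
  obj m := {F : (⦋j⦌ ⟶ m.unop) → F2 // Nm F}
  map f := TypeCat.ofHom fun F => ⟨fun g => F.1 (g ≫ f.unop), F.2.comp _⟩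

/-- normalized `(j+1)`-cocycles -/
def ZZ (j : ℕ) : SSet.{0} where
  obj m := {F : (⦋j + 1⦌ ⟶ m.unop) → F2 // Nm F ∧
    ∀ g : ⦋j + 2⦌ ⟶ m.unop, ∑ q : Fin (j + 3), F (SimplexCategory.δ q ≫ g) = 0}
  map f := TypeCat.ofHom fun F => ⟨fun g => F.1 (g ≫ f.unop), F.2.1.comp _, fun g => by
    simp only [Category.assoc]
    exact F.2.2 _⟩

/-- the coboundary -/
def dd (j : ℕ) : CC j ⟶ ZZ j where
  app m := TypeCat.ofHom fun F => ⟨fun g => ∑ q : Fin (j + 2), F.1 (SimplexCategory.δ q ≫ g),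
    fun g hg => (D_tl F.1 g).symm.trans (F.2.tl.D _ fun h => hg ((ms_nodup g).1 h)),
    fun g => ((Finset.sum_congr rfl fun q _ => (D_tl F.1 _).symm).trans
      (D_ms (D (tl F.1)) g).symm).trans (DD _ _)⟩

theorem dd_fib (j : ℕ) : J.rlp (dd j) := by
  intro A B i hi
  simp only [J, MorphismProperty.iSup_iff] at hi
  obtain ⟨n, ⟨k⟩⟩ := hi
  refine ⟨fun {u v} sq => ?_⟩
  classical
  obtain ⟨w, rfl⟩ := SSet.yonedaEquiv.symm.surjective v
  let z : (⦋j + 1⦌ ⟶ ⦋n + 1⦌) → F2 := w.1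
  let b : (⦋j⦌ ⟶ ⦋n + 1⦌) → F2 := fun g =>
    if h : SSet.stdSimplex.objEquiv.symm g ∈ (SSet.horn (n + 1) k).obj (op ⦋j⦌) then
      (u.app _ ⟨_, h⟩).1 (𝟙 _) else 0
  have hu : ∀ (p : SimplexCategoryᵒᵖ) (x : (SSet.horn (n + 1) k).toSSet.obj p)
      (g : ⦋j⦌ ⟶ p.unop), b (g ≫ SSet.stdSimplex.objEquiv x.1) = (u.app p x).1 g := by
    intro p x g
    have h1 : SSet.stdSimplex.objEquiv.symm (g ≫ SSet.stdSimplex.objEquiv x.1) ∈
        (SSet.horn (n + 1) k).obj (op ⦋j⦌) := (SSet.horn (n + 1) k).map g.op x.2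
    simp only [b]
    rw [dif_pos h1]
    have h2 := congrArg (fun F : (CC j).obj (op ⦋j⦌) => F.1 (𝟙 _))
      (ConcreteCategory.congr_hom (u.naturality g.op) x)
    exact h2.trans (congrArg (u.app p x).1 (Category.id_comp _))
  let L : Multiset (Fin (n + 2)) → Prop := fun M => ∃ t, t ≠ k ∧ t ∉ M
  have hL : ∀ {d : ℕ} (g : ⦋d⦌ ⟶ ⦋n + 1⦌), L (ms g) ↔
      SSet.stdSimplex.objEquiv.symm g ∈ (SSet.horn (n + 1) k).obj (op ⦋d⦌) := by
    intro d g
    rw [SSet.mem_horn_iff_notMem_range]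
    simp only [L, exists_prop]
    refine exists_congr fun t => and_congr Iff.rfl (not_congr ?_)
    exact mem_ms g t
  have nb : Nm b := by
    intro g hg
    by_cases h : SSet.stdSimplex.objEquiv.symm g ∈ (SSet.horn (n + 1) k).obj (op ⦋j⦌)
    · obtain ⟨r, hr, hr2⟩ := exists_retr g hg
      have h2 := hu _ ⟨_, h⟩ r
      rw [(u.app _ ⟨_, h⟩).2 r hr] at h2
      rw [← hr2]
      exact h2
    · simp only [b]
      rw [dif_neg h]
  obtain ⟨B, nB, hB1, hB2⟩ := cone k L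
    (fun M v ⟨t, h1, h2⟩ => ⟨t, h1, fun h3 => h2 (Multiset.mem_of_mem_erase h3)⟩)
    (fun M ⟨t, h1, h2⟩ => ⟨t, h1, fun h3 => (Multiset.mem_cons.1 h3).elim h1 h2⟩) j
    (tl z) (tl b) w.2.1.tl nb.tl
    (fun M hM => by
      obtain ⟨g, rfl⟩ := ms_surj (m := ⦋n + 1⦌) (j := j + 2) M hM
      rw [D_tl]
      exact w.2.2 g)
    (fun M hM hLM => by
      obtain ⟨g, rfl⟩ := ms_surj (m := ⦋n + 1⦌) (j := j + 1) M hM
      rw [D_tl, tl_ms]
      have h1 := congrArg (fun F : (ZZ j).obj (op ⦋j + 1⦌) => F.1 (𝟙 _))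
        (ConcreteCategory.congr_hom (NatTrans.congr_app sq.w (op ⦋j + 1⦌)) ⟨_, (hL g).1 hLM⟩)
      have h2 : ∀ q : Fin (j + 2), b (SimplexCategory.δ q ≫ g) =
          (u.app _ ⟨_, (hL g).1 hLM⟩).1 (SimplexCategory.δ q ≫ 𝟙 _) := fun q => by
        rw [Category.comp_id]
        exact hu _ ⟨_, (hL g).1 hLM⟩ _
      simp only [h2]
      exact h1.trans (congrArg z (Category.id_comp g)))
  refine ⟨⟨{ l := SSet.yonedaEquiv.symm ⟨fun g => B (ms g), fun g hg =>
              nB _ fun h => hg ((ms_nodup g).1 h)⟩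
             fac_left := ?_
             fac_right := ?_ }⟩⟩
  · ext p x
    refine Subtype.ext (funext fun g => ?_)
    have h1 : L (ms (g ≫ SSet.stdSimplex.objEquiv x.1)) :=
      (hL _).2 ((SSet.horn (n + 1) k).map g.op x.2)
    exact ((hB2 _ (ms_card _) h1).trans (tl_ms _ _)).trans (hu p x g)
  · refine (SSet.yonedaEquiv_symm_comp _ _).trans (congrArg SSet.yonedaEquiv.symm ?_)
    refine Subtype.ext (funext fun g => ?_)
    exact ((D_ms B g).symm.trans (hB1 _ (ms_card _))).trans (tl_ms _ _)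

/-- vanishing of the cohomology in degree `j + 1` -/
def P (j : ℕ) (K : SSet.{0}) : Prop := ∀ φ : K ⟶ ZZ j, ∃ ψ : K ⟶ CC j, ψ ≫ dd j = φ

theorem P.of_retract {j : ℕ} {K L : SSet.{0}} (h : P j K) (s : L ⟶ K) (r : K ⟶ L)
    (hsr : s ≫ r = 𝟙 L) : P j L := by
  intro φ
  obtain ⟨ψ, hψ⟩ := h (r ≫ φ)
  exact ⟨s ≫ ψ, by rw [Category.assoc, hψ, ← Category.assoc, hsr, Category.id_comp]⟩

theorem exists_section {Z L : SSet.{0}} (p : Z ⟶ L) (hp : I.rlp p) :
    ∃ s : L ⟶ Z, s ≫ p = 𝟙 L := by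
  rw [← SSet.rlp_monomorphisms] at hp
  have h1 : HasLiftingProperty (Limits.initial.to L) p := hp _ (by
    change Mono _
    infer_instance)
  have sq : CommSq (Limits.initial.to Z) (Limits.initial.to L) p (𝟙 L) :=
    ⟨Limits.initialIsInitial.hom_ext _ _⟩
  exact ⟨sq.lift, sq.fac_right⟩

theorem P.of_whe {j : ℕ} {K L : SSet.{0}} (h : P j K) (f : K ⟶ L) (hf : SX.whe f) : P j L := by
  obtain ⟨Z, i, p, hi, hp, -⟩ := hf
  obtain ⟨s, hs⟩ := exists_section p hp
  refine P.of_retract (K := Z) (fun φ => ?_) s p hs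
  obtain ⟨ψ, hψ⟩ := h (i ≫ φ)
  have h1 : HasLiftingProperty i (dd j) := hi _ (dd_fib j)
  have sq : CommSq ψ i (dd j) φ := ⟨hψ⟩
  exact ⟨sq.lift, sq.fac_right⟩

/-- normalized cochains of a simplicial set -/
def NK {j : ℕ} {K : SSet.{0}} (b : K _⦋j⦌ → F2) : Prop :=
  ∀ (m : SimplexCategory) (g : ⦋j⦌ ⟶ m) (x : K.obj (op m)),
    ¬Function.Injective g.toOrderHom → b (K.map g.op x) = 0

theorem P.exists_cochain {j : ℕ} {K : SSet.{0}} (h : P j K) (z : K _⦋j + 1⦌ → F2) (nz : NK z)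
    (hz : ∀ x : K _⦋j + 2⦌, ∑ q : Fin (j + 3), z (K.map (SimplexCategory.δ q).op x) = 0) :
    ∃ b : K _⦋j⦌ → F2, NK b ∧
      ∀ x : K _⦋j + 1⦌, ∑ q : Fin (j + 2), b (K.map (SimplexCategory.δ q).op x) = z x := by
  let φ : K ⟶ ZZ j :=
    { app := fun p => TypeCat.ofHom fun x => ⟨fun g => z (K.map g.op x), fun g hg => nz _ g x hg,
        fun g => by
          simp only [op_comp, Functor.map_comp, ConcreteCategory.comp_apply]
          exact hz _⟩
      naturality := fun p p' f => by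
        ext x
        refine Subtype.ext (funext fun g => ?_)
        change z (K.map g.op (K.map f x)) = z (K.map (g ≫ f.unop).op x)
        simp only [op_comp, Functor.map_comp, ConcreteCategory.comp_apply, Quiver.Hom.op_unop] }
  obtain ⟨ψ, hψ⟩ := h φ
  have hn : ∀ (m : SimplexCategory) (g : ⦋j⦌ ⟶ m) (x : K.obj (op m)),
      (ψ.app _ (K.map g.op x)).1 (𝟙 _) = (ψ.app _ x).1 g := fun m g x =>
    (congrArg (fun F : (CC j).obj (op ⦋j⦌) => F.1 (𝟙 _))
      (ConcreteCategory.congr_hom (ψ.naturality g.op) x)).trans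
      (congrArg (ψ.app _ x).1 (Category.id_comp _))
  refine ⟨fun x => (ψ.app _ x).1 (𝟙 _), fun m g x hg => (hn m g x).trans ((ψ.app _ x).2 g hg),
    fun x => ?_⟩
  have h1 := congrArg (fun F : (ZZ j).obj (op ⦋j + 1⦌) => F.1 (𝟙 _))
    (ConcreteCategory.congr_hom (NatTrans.congr_app hψ (op ⦋j + 1⦌)) x)
  have h2 : z (K.map (𝟙 ⦋j + 1⦌).op x) = z x := by simp
  simp only [hn]
  refine Eq.trans ?_ (h1.trans h2)
  exact Finset.sum_congr rfl fun q _ => congrArg (ψ.app _ x).1 (Category.comp_id _).symm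

/-- a simplicial set covered by a simplex of small dimension -/
theorem P_of_epi {j d : ℕ} (hd : d ≤ j) {K : SSet.{0}} (π : Δ[d] ⟶ K) [Epi π] : P j K := by
  intro φ
  refine ⟨{ app := fun p => TypeCat.ofHom fun _ => ⟨fun _ => 0, fun _ _ => rfl⟩ }, ?_⟩
  rw [← cancel_epi π]
  apply SSet.yonedaEquiv.injective
  refine Subtype.ext (funext fun g => ?_)
  have hg : ¬Function.Injective g.toOrderHom := fun h => by
    have h2 := Fintype.card_le_of_injective _ h
    simp at h2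
    omega
  exact ((SSet.yonedaEquiv _ : (ZZ j).obj (op ⦋d⦌)).2.1 g hg).trans
    ((SSet.yonedaEquiv _ : (ZZ j).obj (op ⦋d⦌)).2.1 g hg).symm

end Vale.Agent.P213.X59
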