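import Vale.Agent.P213.SX.Defs
import Vale.Agent.P213Z.DefsA

/-!
Statement-level definitions: the classes transferred along `c S ⊣ E N` for an adjunction `S ⊣ E`
on simplicial sets.
-/

open CategoryTheory SSet.modelCategoryQuillen Vale.Agent.P213Z.G

namespace Vale.Agent.N213X

/-- The `k`-fold subdivision. -/
noncomputable def sdPow (k : ℕ) : SSet.{0} ⥤ SSet.{0} :=
  Nat.rec (𝟭 _) (fun _ S => S ⋙ SSet.sd) k

/-- The `k`-fold extension. -/
noncomputable def exPow (k : ℕ) : SSet.{0} ⥤ SSet.{0} :=
  Nat.rec (𝟭 _) (fun _ E => SSet.ex ⋙ E) k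

/-- The adjunction between them. -/
noncomputable def adjPow (k : ℕ) : sdPow k ⊣ exPow k :=
  Nat.rec (motive := fun k => sdPow k ⊣ exPow k) Adjunction.id
    (fun _ a => a.comp SSet.sdExAdjunction) k

variable {D : Type 1} [Category.{0} D] (N : D ⥤ SSet.{0})

/-- `N f` is a weak homotopy equivalence. -/
def W : MorphismProperty D := weq.inverseImage N

/-- `E N f` is a Kan fibration. -/
def F (E : SSet.{0} ⥤ SSet.{0}) : MorphismProperty D := J.rlp.inverseImage (N ⋙ E)

/-- Left lifting property against `F` and `W` together. -/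
def C (E : SSet.{0} ⥤ SSet.{0}) : MorphismProperty D := (F N E ⊓ W N).llp

/-- The classes `C, W, F` form a model structure, `N` has a left adjoint, and for each left
adjoint `c` the adjunction `c S ⊣ E N` is a Quillen equivalence with the Kan-Quillen model
structure: `c S` preserves cofibrations and trivial cofibrations, and a map `c S K ⟶ Y` is a weak
equivalence if and only if its adjunct `K ⟶ E N Y` is. -/
def Transfers {S E : SSet.{0} ⥤ SSet.{0}} (a : S ⊣ E) : Prop :=
  P213.SX.IsModel (C N E) (W N) (F N E) ∧ N.IsRightAdjoint ∧ ∀ c (h : c ⊣ N),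
    (∀ K K' (i : K ⟶ K'), Mono i →
      C N E ((S ⋙ c).map i) ∧ (weq i → W N ((S ⋙ c).map i))) ∧
    ∀ K Y (f : (S ⋙ c).obj K ⟶ Y), W N f ↔ weq ((a.comp h).homEquiv K Y f)

end Vale.Agent.N213X
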