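import Vale.Agent.N213X.Coh

/-!
Working form of the Street nerve, small cells of the orientals, and the sphere `Δ[2] / ∂Δ[2]`.
-/

open CategoryTheory Limits Simplicial Opposite

namespace Vale.Agent.P213.X59

open SX

variable {n : ℕ∞}

/-- `y` is the image of `x` under `θ` -/
def Push {k m : ℕ} (θ : ⦋k⦌ ⟶ ⦋m⦌) (x : O k) (y : O m) : Prop :=
  ∀ a t, y.coef a t = ∑ u with u.image θ.toOrderHom = t ∧ u.card = t.card, x.coef a u

/-- `z` is the composite of `x` and `y` along the `k`-cell `w` -/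
def Cmp {m : ℕ} (k : ℕ) (x y z w : O m) : Prop := IsBd true k x w ∧ IsBd false k y w ∧
  ∀ a s, z.coef a s + w.coef a s = x.coef a s + y.coef a s

instance {k m : ℕ} (θ : ⦋k⦌ ⟶ ⦋m⦌) (x : O k) (y : O m) : Decidable (Push θ x y) := by
  unfold Push
  infer_instance

instance {m : ℕ} (a : Bool) (k : ℕ) (x y : O m) : Decidable (IsBd a k x y) := by
  unfold IsBd
  infer_instance

instance {m : ℕ} (k : ℕ) (x y z w : O m) : Decidable (Cmp k x y z w) := by
  unfold Cmp
  infer_instance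

theorem _root_.Vale.Agent.P213.SX.IsSimplex.cmp {X : NCat n} {m : ℕ} {f : O m → X.C}
    (h : IsSimplex X f) {k : ℕ} {x y z w : O m} (hc : Cmp k x y z w) :
    f z = X.cmp k (f x) (f y) := h.2 k x y z w hc.1 hc.2.1 hc.2.2

/-- the data of a Street nerve -/
structure Ev (N : NCat n ⥤ SSet.{0}) where
  ev : ∀ (X : NCat n) (m : ℕ), (Δ[m] ⟶ N.obj X) → O m → X.C
  inj : ∀ X m s s', (∀ x, ev X m s x = ev X m s' x) → s = s'
  simp : ∀ X m s, IsSimplex X (ev X m s)
  surj : ∀ X m f, IsSimplex X f → ∃ s, ev X m s = f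
  nat : ∀ X Y (φ : X ⟶ Y) m s x, ev Y m (s ≫ N.map φ) x = φ.toFun (ev X m s x)
  push : ∀ X m k (θ : ⦋k⦌ ⟶ ⦋m⦌) s x y, Push θ x y →
    ev X k (SSet.stdSimplex.map θ ≫ s) x = ev X m s y

theorem exists_ev {N : NCat n ⥤ SSet.{0}} (hN : IsStreetNerve id (fun _ _ => Fun.toFun) N) :
    Nonempty (Ev N) := by
  obtain ⟨ev, h1, h2, h3⟩ := hN
  exact ⟨⟨ev, fun X m s s' h => (h1 X m).injOn trivial trivial (funext h),
    fun X m s => (h1 X m).mapsTo trivial,
    fun X m f hf => ((h1 X m).surjOn hf).imp fun _ h => h.2, h2, h3⟩⟩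

/-- the conditions on a table given by two lists of faces -/
def GoodTab {m : ℕ} (l : Bool → List (Finset (Fin (m + 1)))) : Prop :=
  (∀ a, (l a).count ∅ = 0) ∧ (∀ a, ∑ i, (l a).count {i} = 1) ∧
  ∀ a t, t ≠ ∅ → (((l true).count t : ℕ) : ℤ) - ((l false).count t : ℕ) =
    ∑ j ∈ tᶜ, (-1) ^ (t.filter (· < j)).card * (((l a).count (insert j t) : ℕ) : ℤ)

instance {m : ℕ} (l : Bool → List (Finset (Fin (m + 1)))) : Decidable (GoodTab l) := by
  unfold GoodTab
  infer_instance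

/-- the cell with the listed source and target faces -/
def tab (m : ℕ) (s t : List (Finset (Fin (m + 1))))
    (h : GoodTab (fun a => bif a then t else s)) : O m :=
  ⟨fun a u => (bif a then t else s).count u, h.1, h.2.1, h.2.2⟩

/-- a map of the simplex category from its list of values -/
def hm {k m : ℕ} (f : Fin (k + 1) → Fin (m + 1)) (h : Monotone f) : ⦋k⦌ ⟶ ⦋m⦌ :=
  SimplexCategory.Hom.mk ⟨f, h⟩

theorem hm_ext {k m : ℕ} {f g : ⦋k⦌ ⟶ ⦋m⦌}
    (h : ∀ i : Fin (k + 1), f.toOrderHom i = g.toOrderHom i) : f = g := by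
  ext : 2
  exact funext h

def v0 : O 0 := tab 0 [{0}] [{0}] (by decide +kernel)
def top1 : O 1 := tab 1 [{0}, {0, 1}] [{1}, {0, 1}] (by decide +kernel)
def top2 : O 2 := tab 2 [{0}, {0, 2}, {0, 1, 2}] [{2}, {0, 1}, {1, 2}, {0, 1, 2}] (by decide +kernel)
def e01 : O 2 := tab 2 [{0}, {0, 1}] [{1}, {0, 1}] (by decide +kernel)
def e02 : O 2 := tab 2 [{0}, {0, 2}] [{2}, {0, 2}] (by decide +kernel)
def e12 : O 2 := tab 2 [{1}, {1, 2}] [{2}, {1, 2}] (by decide +kernel)
def p012 : O 2 := tab 2 [{0}, {0, 1}, {1, 2}] [{2}, {0, 1}, {1, 2}] (by decide +kernel)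
def w1 : O 2 := tab 2 [{1}] [{1}] (by decide +kernel)

theorem push_e12 : Push (SimplexCategory.δ 0) top1 e12 := by decide +kernel
theorem push_e02 : Push (SimplexCategory.δ 1) top1 e02 := by decide +kernel
theorem push_e01 : Push (SimplexCategory.δ 2) top1 e01 := by decide +kernel
theorem push_v0 : Push (SimplexCategory.σ 0) top1 v0 := by decide +kernel
theorem bd_v0 : IsBd false 0 v0 v0 := by decide +kernel
theorem bd_top2_s : IsBd false 1 top2 e02 := by decide +kernel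
theorem bd_top2_t : IsBd true 1 top2 p012 := by decide +kernel
theorem bd_top2 : IsBd false 2 top2 top2 := by decide +kernel
theorem cmp_p012 : Cmp 0 e01 e12 p012 w1 := by decide +kernel

/-- every cell of the `m`-th oriental has dimension at most `m` -/
theorem bd_self {m : ℕ} (x : O m) : IsBd false m x x := by
  intro b s
  have hs : s.card ≤ m + 1 := by simpa using s.card_le_univ
  split_ifs with h1 h2
  · rfl
  · have h3 : s = Finset.univ := Finset.eq_univ_of_card _ (by simpa using h2)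
    have h4 := x.bdry false s (by rintro rfl; simp at h2)
    rw [h3, Finset.compl_univ, Finset.sum_empty] at h4
    rw [h3]
    cases b
    · rfl
    · omega
  · omega

/-- the map from the boundary to the point -/
noncomputable def toPt (K : SSet.{0}) : K ⟶ Δ[0] := SSet.const (SSet.stdSimplex.obj₀Equiv.symm 0)

theorem toPt_ext {K : SSet.{0}} (f g : K ⟶ Δ[0]) : f = g := by
  ext p x
  apply SSet.stdSimplex.objEquiv.injective
  ext i : 3
  exact Subsingleton.elim (α := Fin 1) _ _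

/-- the sphere -/
noncomputable def S2 : SSet.{0} := pushout (∂Δ[2]).ι (toPt _)

noncomputable def S2.π : Δ[2] ⟶ S2 := pushout.inl _ _

noncomputable def S2.pt : Δ[0] ⟶ S2 := pushout.inr _ _

instance : Epi S2.π := by
  have : IsSplitEpi (toPt (∂Δ[2] : SSet.{0})) :=
    ⟨⟨⟨SSet.stdSimplex.δ 0 ≫ SSet.boundary.ι 0, toPt_ext _ _⟩⟩⟩
  exact (IsPushout.of_hasPushout (∂Δ[2]).ι (toPt _)).epi_inl_of_epi

theorem S2.face (i : Fin 3) : SSet.stdSimplex.map (SimplexCategory.δ i) ≫ S2.π =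
    SSet.stdSimplex.map (SimplexCategory.σ 0) ≫ S2.pt := by
  have h := SSet.boundary.ι i ≫= pushout.condition (f := (∂Δ[2]).ι) (g := toPt _)
  rw [← Category.assoc, ← Category.assoc,
    toPt_ext (_ ≫ toPt _) (SSet.stdSimplex.map (SimplexCategory.σ 0))] at h
  exact h

theorem S2.exists_desc {K : SSet.{0}} (s : Δ[2] ⟶ K) (p : Δ[0] ⟶ K)
    (h : ∀ i : Fin 3, SSet.stdSimplex.map (SimplexCategory.δ i) ≫ s =
      SSet.stdSimplex.map (SimplexCategory.σ 0) ≫ p) : ∃ f : S2 ⟶ K, S2.π ≫ f = s := by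
  refine ⟨pushout.desc s p (SSet.boundary.hom_ext fun i => ?_), pushout.inl_desc _ _ _⟩
  rw [← Category.assoc, ← Category.assoc,
    toPt_ext (_ ≫ toPt _) (SSet.stdSimplex.map (SimplexCategory.σ 0))]
  exact h i

/-- normalized cochains, on simplices seen as maps -/
def NS {j : ℕ} {K : SSet.{0}} (b : (Δ[j] ⟶ K) → F2) : Prop :=
  ∀ (m : ℕ) (g : ⦋j⦌ ⟶ ⦋m⦌) (s : Δ[m] ⟶ K),
    ¬Function.Injective g.toOrderHom → b (SSet.stdSimplex.map g ≫ s) = 0

theorem P.exists_smp {j : ℕ} {K : SSet.{0}} (h : P j K) (z : (Δ[j + 1] ⟶ K) → F2) (nz : NS z)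
    (hz : ∀ s : Δ[j + 2] ⟶ K,
      ∑ q : Fin (j + 3), z (SSet.stdSimplex.map (SimplexCategory.δ q) ≫ s) = 0) :
    ∃ b : (Δ[j] ⟶ K) → F2, NS b ∧ ∀ s : Δ[j + 1] ⟶ K,
      ∑ q : Fin (j + 2), b (SSet.stdSimplex.map (SimplexCategory.δ q) ≫ s) = z s := by
  obtain ⟨b, nb, hb⟩ := h.exists_cochain (fun x => z (SSet.yonedaEquiv.symm x))
    (fun m g x hg => (congrArg z (SSet.yonedaEquiv_symm_naturality_left g x).symm).trans
      (nz m.len g _ hg))
    (fun x => by
      simp only [← SSet.yonedaEquiv_symm_naturality_left]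
      exact hz _)
  refine ⟨fun s => b (SSet.yonedaEquiv s), fun m g s hg => ?_, fun s => ?_⟩
  · simp only [← SSet.yonedaEquiv_naturality]
    exact nb _ g _ hg
  · simp only [← SSet.yonedaEquiv_naturality]
    rw [hb, Equiv.symm_apply_apply]

/-- the sphere has cohomology in degree two -/
theorem not_P_S2 : ¬P 1 S2 := by
  intro h
  classical
  let w : (ZZ 1).obj (op ⦋2⦌) := ⟨fun g => if Function.Injective g.toOrderHom then 1 else 0,
    fun g hg => if_neg hg, fun g => by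
      have h1 : ∀ f : Fin 4 → Fin 3, Monotone f →
          ∑ q : Fin 4, (if Function.Injective (f ∘ q.succAbove) then (1 : F2) else 0) = 0 := by
        decide +kernel
      convert h1 g.toOrderHom g.toOrderHom.monotone using 3
      exact Iff.rfl⟩
  have hsub : ∀ s s' : Δ[1] ⟶ ZZ 1, s = s' := fun s s' => by
    apply SSet.yonedaEquiv.injective
    refine Subtype.ext (funext fun g => ?_)
    have hg : ¬Function.Injective g.toOrderHom := fun h => by
      have h2 := Fintype.card_le_of_injective _ h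
      simp at h2
    exact ((SSet.yonedaEquiv _ : (ZZ 1).obj (op ⦋1⦌)).2.1 g hg).trans
      ((SSet.yonedaEquiv _ : (ZZ 1).obj (op ⦋1⦌)).2.1 g hg).symm
  obtain ⟨φ, hφ⟩ := S2.exists_desc (SSet.yonedaEquiv.symm w)
    (SSet.stdSimplex.map (hm ![0] (by decide)) ≫ SSet.yonedaEquiv.symm w) fun _ => hsub _ _
  obtain ⟨ψ, hψ⟩ := h φ
  obtain ⟨b, hb⟩ := SSet.yonedaEquiv.symm.surjective (S2.π ≫ ψ)
  have h1 : SSet.yonedaEquiv.symm b ≫ dd 1 = SSet.yonedaEquiv.symm w := by
    rw [hb, Category.assoc, hψ, hφ]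
  have h2 := congrArg (fun F : (ZZ 1).obj (op ⦋2⦌) => F.1 (𝟙 _))
    (SSet.yonedaEquiv.symm.injective ((SSet.yonedaEquiv_symm_comp _ _).symm.trans h1))
  have h3 : ∀ q : Fin 3, b.1 (SimplexCategory.δ q ≫ 𝟙 _) = 0 := fun q => by
    obtain ⟨b0, hb0⟩ := SSet.yonedaEquiv.symm.surjective (S2.pt ≫ ψ)
    have h4 := S2.face q =≫ ψ
    rw [Category.assoc, Category.assoc, ← hb, ← hb0, SSet.yonedaEquiv_symm_naturality_left,
      SSet.yonedaEquiv_symm_naturality_left] at h4
    have h5 := congrArg (fun F : (CC 1).obj (op ⦋1⦌) => F.1 (𝟙 _))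
      (SSet.yonedaEquiv.symm.injective h4)
    have h6 : b0.1 (𝟙 _ ≫ SimplexCategory.σ 0) = 0 := b0.2 _ fun h => by
      have h2 := Fintype.card_le_of_injective _ h
      simp at h2
    rw [Category.comp_id, ← Category.id_comp (SimplexCategory.δ q)]
    exact h5.trans h6
  have h8 : w.1 (𝟙 _) = 1 := by
    have h9 : Function.Injective (𝟙 ⦋2⦌ : _ ⟶ _).toOrderHom := fun _ _ h => h
    exact if_pos (t := (1 : F2)) (e := 0) h9
  have h7 : (∑ q : Fin 3, b.1 (SimplexCategory.δ q ≫ 𝟙 _)) = 1 := h2.trans h8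
  simp only [h3, Finset.sum_const_zero] at h7
  exact zero_ne_one h7

end Vale.Agent.P213.X59
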