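import Vale.Agent.N213X.Main

/-!
How many subdivisions are needed (kept for the record; not a hand-in).
-/

open CategoryTheory SSet.modelCategoryQuillen Vale.Agent.P213.SX Vale.Agent.N213X

/-- For the Street nerve `N` on strict `n`-categories: `k ≥ 2` subdivisions give a model structure
and a Quillen equivalence; no subdivision never does; one subdivision does not for `n = 1`. -/
theorem Vale.Agent.N213X.subdivisions (n : ℕ∞) (hn : 1 ≤ n) (N : NCat n ⥤ SSet.{0})
    (hN : IsStreetNerve id (fun _ _ => Fun.toFun) N) :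
    (∀ k, 2 ≤ k → Transfers N (adjPow k)) ∧
      (∀ cof fib, IsModel cof (W N) fib → ¬fib ≤ J.rlp.inverseImage N) ∧
      (n = 1 → ∀ cof fib, IsModel cof (W N) fib → ¬fib ≤ F N SSet.ex) := by
  refine ⟨fun k hk => transfers_pow N k ((main n hn).2 N hN).2.2.2.2.1
    (H574M.thomasonK hn hN k hk), ?_, ?_⟩
  · rw [W_eq]
    exact fun _ _ h => Vale.Agent.P213.X59.not_model_zero hn hN h
  · rintro rfl
    rw [W_eq]
    exact fun _ _ h => Vale.Agent.P213.X59.not_model_one hN h
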