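import Vale.Agent.N213X.Neg
import Vale.Agent.N213X.Defs
import Vale.Agent.P213Z.Pi2

/-!
Translation to the statement-level definitions.
-/

open CategoryTheory SSet.modelCategoryQuillen

namespace Vale.Agent.N213X

open Vale.Agent.P213

variable {D : Type 1} [Category.{0} D] (N : D ⥤ SSet.{0})

theorem W_eq : W N = SX.thW N := congrArg (fun w : MorphismProperty SSet.{0} => w.inverseImage N)
  P213Z.gweq_eq

theorem sdPow_eq : ∀ k, sdPow k = H574.sdk k
  | 0 => rfl
  | k + 1 => congrArg (· ⋙ SSet.sd) (sdPow_eq k)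

theorem exPow_eq : ∀ k, exPow k = H574.exk k
  | 0 => rfl
  | k + 1 => congrArg (SSet.ex ⋙ ·) (exPow_eq k)

theorem adjPow_heq : ∀ k, HEq (adjPow k) (H574.adjk k)
  | 0 => HEq.rfl
  | k + 1 => by
    have h := adjPow_heq k
    have h1 := sdPow_eq k
    have h2 := exPow_eq k
    change HEq ((adjPow k).comp SSet.sdExAdjunction) ((H574.adjk k).comp SSet.sdExAdjunction)
    generalize adjPow k = a at h
    generalize H574.adjk k = b at h
    generalize sdPow k = s at *
    generalize exPow k = e at *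
    subst h1 h2
    rw [eq_of_heq h]

theorem transfers_of {S E : SSet.{0} ⥤ SSet.{0}} (a : S ⊣ E)
    (h1 : SX.IsModel (F N E ⊓ SX.thW N).llp (SX.thW N) (F N E)) (h2 : N.IsRightAdjoint)
    (h3 : ∀ c (h : c ⊣ N),
      SX.IsQuillenEquivalence (a.comp h) (F N E ⊓ SX.thW N).llp (SX.thW N)) : Transfers N a := by
  unfold Transfers C
  rw [W_eq, P213Z.gweq_eq]
  refine ⟨h1, h2, fun c h => ⟨(h3 c h).1, fun K Y f => ?_⟩⟩
  rw [Adjunction.homEquiv_unit]
  exact (h3 c h).2 K Y f

theorem transfers_pow (k : ℕ) (h2 : N.IsRightAdjoint) (h : H574.IsThomasonK N k) :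
    Transfers N (adjPow k) := by
  have h1 : Transfers N (H574.adjk k) := transfers_of N _ h.1 h2 fun c a => (h.2.2 c a).1
  have e := adjPow_heq k
  have e1 := sdPow_eq k
  have e2 := exPow_eq k
  generalize adjPow k = a at e
  generalize sdPow k = s at *
  generalize exPow k = t at *
  subst e1 e2
  rwa [eq_of_heq e]

theorem transfers_two (h : SX.IsThomason N) :
    Transfers N (SSet.sdExAdjunction.comp SSet.sdExAdjunction) :=
  transfers_of N _ h.2.1 h.2.2.2.2.1 fun c a => (h.2.2.2.2.2 c a).1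

end Vale.Agent.N213X
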