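import Vale.Agent.P213.H574.Main

/-!
If the images of the horn inclusions under `c Sd^k` are trivial cofibrations of a model structure
with the Thomason weak equivalences, then the units `Sd^k K ⟶ N c Sd^k K` are weak equivalences.
-/

open CategoryTheory Limits HomotopicalAlgebra Simplicial SSet.modelCategoryQuillen
  MorphismProperty

namespace Vale.Agent.P213.X59

open SX H574 SX.H574M

theorem whe_of_precomp {X Y Z : SSet.{0}} {f : X ⟶ Y} {g : Y ⟶ Z} (hf : SX.whe f)
    (h : SX.whe (f ≫ g)) : SX.whe g := (whe_precomp hf).1 h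

theorem whe_of_postcomp {X Y Z : SSet.{0}} {f : X ⟶ Y} {g : Y ⟶ Z} (hg : SX.whe g)
    (h : SX.whe (f ≫ g)) : SX.whe f := by
  rw [whe_eq'] at *
  exact P213.whe.of_postcomp _ _ hg h

theorem whe_last (K : SSet.{0}) : SX.whe (sdLast.app K) := by
  rw [whe_eq']
  exact P213.whe_sdLast K

theorem whe_retract {X Y Z W : SSet.{0}} {f : X ⟶ Y} {g : Z ⟶ W} (r : RetractArrow f g)
    (hg : SX.whe g) : SX.whe f := by
  rw [whe_eq'] at *
  exact P213.whe.of_retract r hg

variable {D : Type 1} [Category.{0} D]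

/-- Ken Brown's lemma -/
theorem map_whe (hS : IsModel (.monomorphisms SSet.{0}) SX.whe J.rlp) {L : SSet.{0} ⥤ D}
    {R : D ⥤ SSet.{0}} (adj : L ⊣ R) {cof w fib : MorphismProperty D} (hM : IsModel cof w fib)
    (hf : fib ≤ J.rlp.inverseImage R) {K K' : SSet.{0}} (f : K ⟶ K') (h : SX.whe f) :
    w (L.map f) := by
  obtain ⟨M, -, h2, h3⟩ := hM
  obtain ⟨M', h1', h2', h3'⟩ := hS
  have hc : ∀ K : SSet.{0}, @IsCofibrant _ _ M'.categoryWithCofibrations _ K := fun K => by
    refine (@isCofibrant_iff _ _ M'.categoryWithCofibrations _ K).2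
      (@Cofibration.mk _ _ _ _ _ M'.categoryWithCofibrations ?_)
    rw [h1']
    change Mono _
    infer_instance
  have := @we_map SSet.{0} D _ _ M' M L R adj (by rw [h3, h3']; exact hf) K K' (hc K) (hc K') f
    (by rw [h2']; exact h)
  rwa [h2] at this

variable {N : D ⥤ SSet.{0}}

theorem unit_sd2 (hT : SX.IsThomason N) {c : SSet.{0} ⥤ D} (adj : c ⊣ N) (K : SSet.{0}) :
    SX.whe (adj.unit.app (SSet.sd.obj (SSet.sd.obj K))) := by
  have h1 := ((hT.2.2.2.2.2 c adj).1.2 K _ (𝟙 _)).1 (by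
    change SX.whe (N.map (𝟙 _))
    rw [N.map_id]
    exact whe_id _)
  have e : ((SSet.sdExAdjunction.comp SSet.sdExAdjunction).comp adj).unit.app K ≫
      (N ⋙ SSet.ex ⋙ SSet.ex).map (𝟙 _) = SSet.sdExAdjunction.unit.app K ≫
        SSet.ex.map (SSet.sdExAdjunction.unit.app (SSet.sd.obj K) ≫
          SSet.ex.map (adj.unit.app (SSet.sd.obj (SSet.sd.obj K)))) := by
    simp [Adjunction.comp]
  have hu : ∀ K, SX.whe (SSet.sdExAdjunction.unit.app K) := fun K => by
    rw [whe_eq']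
    exact P213.whe_unit_sdEx _
  rw [e] at h1
  exact (whe_ex _).1 (whe_of_precomp (hu _) ((whe_ex _).1 (whe_of_precomp (hu _) h1)))

theorem unit_of_map {c : SSet.{0} ⥤ D} (adj : c ⊣ N) {K L : SSet.{0}} (f : K ⟶ L)
    (hf : SX.whe f) (hc : SX.thW N (c.map f)) (hK : SX.whe (adj.unit.app K)) :
    SX.whe (adj.unit.app L) := by
  refine whe_of_precomp hf ?_
  have e : f ≫ adj.unit.app L = adj.unit.app K ≫ N.map (c.map f) := adj.unit.naturality f
  rw [e]
  exact whe_comp hK hc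

theorem unit_one (hT : SX.IsThomason N) {c : SSet.{0} ⥤ D} (adj : c ⊣ N)
    {cof fib : MorphismProperty D} (hM : IsModel cof (SX.thW N) fib) (hf : fib ≤ thFk N 1)
    (K : SSet.{0}) : SX.whe (adj.unit.app (SSet.sd.obj K)) :=
  unit_of_map adj (SSet.sd.map (sdLast.app K)) ((whe_sd _).2 (whe_last K))
    (map_whe hT.1 ((adjk 1).comp adj) hM hf _ (whe_last K)) (unit_sd2 hT adj K)

theorem unit_zero (hT : SX.IsThomason N) {c : SSet.{0} ⥤ D} (adj : c ⊣ N)
    {cof fib : MorphismProperty D} (hM : IsModel cof (SX.thW N) fib) (hf : fib ≤ thFk N 0)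
    (K : SSet.{0}) : SX.whe (adj.unit.app K) :=
  unit_of_map adj (sdLast.app K) (whe_last K)
    (map_whe hT.1 ((adjk 0).comp adj) hM hf _ (whe_last K))
    (unit_one hT adj hM (hf.trans (thFk_le_succ N 0)) K)

end Vale.Agent.P213.X59
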