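import Vale.Agent.N213X.One
import Vale.Agent.N213X.Unit

/-!
The subdivisions cannot be dropped.
-/

open CategoryTheory Limits Simplicial Opposite

namespace Vale.Agent.P213.X59

open SX H574 SX.H574M

theorem not_model_one {N : SX.NCat 1 ⥤ SSet.{0}}
    (hN : SX.IsStreetNerve id (fun _ _ => SX.Fun.toFun) N) {cof fib : MorphismProperty (SX.NCat 1)}
    (hM : SX.IsModel cof (SX.thW N) fib) : ¬fib ≤ thFk N 1 := by
  intro hf
  have hT := (SX.main 1 le_rfl).2 N hN
  obtain ⟨c, ⟨adj⟩⟩ := hT.2.2.2.2.1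
  obtain ⟨E⟩ := exists_ev hN
  obtain ⟨q, r, hrq, h⟩ := exists_qr E
  have hu := unit_one hT adj hM hf S2
  have h1 : c.map q ≫ c.map r = 𝟙 _ := by
    apply (adj.homEquiv _ _).injective
    rw [← c.map_comp, adj.homEquiv_unit, adj.homEquiv_unit, N.map_id]
    exact (((adj.unit.naturality (q ≫ r)).symm.trans (Category.assoc _ _ _)).trans
      (h _ _)).trans (Category.comp_id _).symm
  have h2 : c.map r ≫ c.map q = 𝟙 _ := by rw [← c.map_comp, hrq, c.map_id]
  have : IsIso (c.map q) := ⟨c.map r, h1, h2⟩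
  have h3 : SX.whe (adj.unit.app Δ[1]) := whe_retract
    { i := Arrow.homMk r (N.map (c.map r)) (adj.unit.naturality r)
      r := Arrow.homMk q (N.map (c.map q)) (adj.unit.naturality q)
      retract := Arrow.hom_ext _ _ hrq
        ((N.map_comp _ _).symm.trans ((congrArg N.map h2).trans (N.map_id _))) } hu
  have h4 : SX.whe q := by
    refine whe_of_postcomp h3 ?_
    have e : q ≫ adj.unit.app Δ[1] = adj.unit.app _ ≫ N.map (c.map q) := adj.unit.naturality q
    rw [e]
    refine whe_comp hu ?_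
    rw [whe_eq']
    exact P213.whe.of_isIso _
  have h5 : SX.whe (SSet.sd.map S2.pt ≫ q) := by
    rw [whe_eq']
    exact (SdWhe.contr_sd_stdSimplex 0).whe (SdWhe.contr_stdSimplex 1) _
  exact not_P_S2 ((P_of_epi (j := 1) (d := 0) (by omega) (𝟙 _)).of_whe _
    ((whe_sd _).1 (whe_of_postcomp h4 h5)))

theorem not_model_zero {n : ℕ∞} (hn : 1 ≤ n) {N : SX.NCat n ⥤ SSet.{0}}
    (hN : SX.IsStreetNerve id (fun _ _ => SX.Fun.toFun) N) {cof fib : MorphismProperty (SX.NCat n)}
    (hM : SX.IsModel cof (SX.thW N) fib) : ¬fib ≤ thFk N 0 := by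
  intro hf
  rcases hn.eq_or_lt with rfl | h2
  · exact not_model_one hN hM (hf.trans (thFk_le_succ N 0))
  · have hT := (SX.main n hn).2 N hN
    obtain ⟨c, ⟨adj⟩⟩ := hT.2.2.2.2.1
    obtain ⟨E⟩ := exists_ev hN
    exact not_whe_unit E (Order.add_one_le_of_lt h2) adj (unit_zero hT adj hM hf S2)

end Vale.Agent.P213.X59
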