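import Vale.Agent.N213X.Zero
import Mathlib.AlgebraicTopology.SimplicialSet.NerveNondegenerate

/-!
Maps from the subdivided sphere to the Street nerve of a `1`-category factor through `Δ[1]`.
-/

open CategoryTheory Limits Simplicial Opposite

namespace Vale.Agent.P213.X59

open SX


def w0 : O 2 := tab 2 [{0}] [{0}] (by decide +kernel)
def w2 : O 2 := tab 2 [{2}] [{2}] (by decide +kernel)
def b0 : O 1 := tab 1 [{0}] [{0}] (by decide +kernel)

theorem O_ext {m : ℕ} {x y : O m} (h : ∀ a s, x.coef a s = y.coef a s) : x = y := by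
  obtain ⟨x, _, _, _⟩ := x
  obtain ⟨y, _, _, _⟩ := y
  obtain rfl : x = y := funext fun a => funext (h a)
  rfl

theorem O2_ext {x y : O 2} (h : ∀ a, x.coef a {0} = y.coef a {0} ∧ x.coef a {1} = y.coef a {1} ∧
    x.coef a {2} = y.coef a {2} ∧ x.coef a {0, 1} = y.coef a {0, 1} ∧
    x.coef a {0, 2} = y.coef a {0, 2} ∧ x.coef a {1, 2} = y.coef a {1, 2} ∧
    x.coef a {0, 1, 2} = y.coef a {0, 1, 2}) : x = y := by
  refine O_ext fun a s => ?_
  have hs : ∀ s : Finset (Fin 3), s = ∅ ∨ s = {0} ∨ s = {1} ∨ s = {2} ∨ s = {0, 1} ∨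
      s = {0, 2} ∨ s = {1, 2} ∨ s = {0, 1, 2} := by decide
  obtain ⟨h0, h1, h2, h3, h4, h5, h6⟩ := h a
  rcases hs s with rfl | rfl | rfl | rfl | rfl | rfl | rfl | rfl
  · rw [x.empty, y.empty]
  all_goals assumption

theorem O2_eqs (x : O 2) (a : Bool) : x.coef a {0} + x.coef a {1} + x.coef a {2} = 1 ∧
    (x.coef true {0} : ℤ) - x.coef false {0} = -x.coef a {0, 1} - x.coef a {0, 2} ∧
    (x.coef true {1} : ℤ) - x.coef false {1} = x.coef a {0, 1} - x.coef a {1, 2} ∧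
    (x.coef true {2} : ℤ) - x.coef false {2} = x.coef a {0, 2} + x.coef a {1, 2} ∧
    (x.coef true {0, 1} : ℤ) - x.coef false {0, 1} = x.coef a {0, 1, 2} ∧
    (x.coef true {0, 2} : ℤ) - x.coef false {0, 2} = -x.coef a {0, 1, 2} ∧
    (x.coef true {1, 2} : ℤ) - x.coef false {1, 2} = x.coef a {0, 1, 2} := by
  have c0 : ({0} : Finset (Fin 3))ᶜ = {1, 2} := by decide
  have c1 : ({1} : Finset (Fin 3))ᶜ = {0, 2} := by decide
  have c2 : ({2} : Finset (Fin 3))ᶜ = {0, 1} := by decide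
  have c3 : ({0, 1} : Finset (Fin 3))ᶜ = {2} := by decide
  have c4 : ({0, 2} : Finset (Fin 3))ᶜ = {1} := by decide
  have c5 : ({1, 2} : Finset (Fin 3))ᶜ = {0} := by decide
  have i0 : (insert 1 {0} : Finset (Fin 3)) = {0, 1} := by decide
  have i1 : (insert 2 {0} : Finset (Fin 3)) = {0, 2} := by decide
  have i2 : (insert 2 {1} : Finset (Fin 3)) = {1, 2} := by decide
  have i3 : (insert 2 {0, 1} : Finset (Fin 3)) = {0, 1, 2} := by decide
  have i4 : (insert 1 {0, 2} : Finset (Fin 3)) = {0, 1, 2} := by decide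
  have h0 := x.bdry a {0} (by decide)
  have h1 := x.bdry a {1} (by decide)
  have h2 := x.bdry a {2} (by decide)
  have h3 := x.bdry a {0, 1} (by decide)
  have h4 := x.bdry a {0, 2} (by decide)
  have h5 := x.bdry a {1, 2} (by decide)
  have h6 := x.aug a
  rw [Fin.sum_univ_three] at h6
  rw [c0, Finset.sum_pair (by decide), i0, i1,
    show (({0} : Finset (Fin 3)).filter (· < 1)).card = 1 by decide,
    show (({0} : Finset (Fin 3)).filter (· < 2)).card = 1 by decide] at h0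
  rw [c1, Finset.sum_pair (by decide), i2,
    show (({1} : Finset (Fin 3)).filter (· < 0)).card = 0 by decide,
    show (({1} : Finset (Fin 3)).filter (· < 2)).card = 1 by decide] at h1
  rw [c2, Finset.sum_pair (by decide),
    show (({2} : Finset (Fin 3)).filter (· < 0)).card = 0 by decide,
    show (({2} : Finset (Fin 3)).filter (· < 1)).card = 0 by decide] at h2
  rw [c3, Finset.sum_singleton, i3,
    show (({0, 1} : Finset (Fin 3)).filter (· < 2)).card = 2 by decide] at h3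
  rw [c4, Finset.sum_singleton, i4,
    show (({0, 2} : Finset (Fin 3)).filter (· < 1)).card = 1 by decide] at h4
  rw [c5, Finset.sum_singleton,
    show (({1, 2} : Finset (Fin 3)).filter (· < 0)).card = 0 by decide] at h5
  norm_num at h0 h1 h2 h3 h4 h5
  omega

/-- the equations for the cells of the second oriental -/
def Eqs (s0 s1 s2 t0 t1 t2 f01 f02 f12 g01 g02 g12 c c' : ℕ) : Prop :=
  (s0 + s1 + s2 = 1 ∧ (t0 : ℤ) - s0 = -f01 - f02 ∧ (t1 : ℤ) - s1 = f01 - f12 ∧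
    (t2 : ℤ) - s2 = f02 + f12 ∧ (g01 : ℤ) - f01 = c ∧ (g02 : ℤ) - f02 = -c ∧
    (g12 : ℤ) - f12 = c) ∧
  (t0 + t1 + t2 = 1 ∧ (t0 : ℤ) - s0 = -g01 - g02 ∧ (t1 : ℤ) - s1 = g01 - g12 ∧
    (t2 : ℤ) - s2 = g02 + g12 ∧ (g01 : ℤ) - f01 = c' ∧ (g02 : ℤ) - f02 = -c' ∧
    (g12 : ℤ) - f12 = c')

theorem eqs_det {s0 s1 s2 t0 t1 t2 f01 f02 f12 g01 g02 g12 c c' : ℕ}
    {S0 S1 S2 T0 T1 T2 F01 F02 F12 G01 G02 G12 C C' : ℕ}
    (h : Eqs s0 s1 s2 t0 t1 t2 f01 f02 f12 g01 g02 g12 c c')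
    (H : Eqs S0 S1 S2 T0 T1 T2 F01 F02 F12 G01 G02 G12 C C')
    (e : s0 = S0 ∧ s1 = S1 ∧ t1 = T1 ∧ t2 = T2 ∧ f02 = F02 ∧ c = C) :
    (s0 = S0 ∧ s1 = S1 ∧ s2 = S2 ∧ f01 = F01 ∧ f02 = F02 ∧ f12 = F12 ∧ c = C) ∧
    (t0 = T0 ∧ t1 = T1 ∧ t2 = T2 ∧ g01 = G01 ∧ g02 = G02 ∧ g12 = G12 ∧ c' = C') := by
  unfold Eqs at h H
  omega

theorem eqs_cases {s0 s1 s2 t0 t1 t2 f01 f02 f12 g01 g02 g12 c c' : ℕ}
    (h : Eqs s0 s1 s2 t0 t1 t2 f01 f02 f12 g01 g02 g12 c c') :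
    (s0 = 1 ∧ s1 = 0 ∧ t1 = 0 ∧ t2 = 0 ∧ f02 = 0 ∧ c = 0) ∨
    (s0 = 0 ∧ s1 = 1 ∧ t1 = 1 ∧ t2 = 0 ∧ f02 = 0 ∧ c = 0) ∨
    (s0 = 0 ∧ s1 = 0 ∧ t1 = 0 ∧ t2 = 1 ∧ f02 = 0 ∧ c = 0) ∨
    (s0 = 1 ∧ s1 = 0 ∧ t1 = 1 ∧ t2 = 0 ∧ f02 = 0 ∧ c = 0) ∨
    (s0 = 1 ∧ s1 = 0 ∧ t1 = 0 ∧ t2 = 1 ∧ f02 = 1 ∧ c = 0) ∨
    (s0 = 0 ∧ s1 = 1 ∧ t1 = 0 ∧ t2 = 1 ∧ f02 = 0 ∧ c = 0) ∨
    (s0 = 1 ∧ s1 = 0 ∧ t1 = 0 ∧ t2 = 1 ∧ f02 = 0 ∧ c = 0) ∨
    (s0 = 1 ∧ s1 = 0 ∧ t1 = 0 ∧ t2 = 1 ∧ f02 = 1 ∧ c = 1) := by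
  unfold Eqs at h
  have h1 : (s0 = 1 ∧ s1 = 0) ∨ (s0 = 0 ∧ s1 = 1) ∨ (s0 = 0 ∧ s1 = 0) := by omega
  have h2 : (t1 = 1 ∧ t2 = 0) ∨ (t1 = 0 ∧ t2 = 1) ∨ (t1 = 0 ∧ t2 = 0) := by omega
  have h3 : f02 = 0 ∨ f02 = 1 := by omega
  have h4 : c = 0 ∨ c = 1 := by omega
  rcases h1 with ⟨rfl, rfl⟩ | ⟨rfl, rfl⟩ | ⟨rfl, rfl⟩ <;>
    rcases h2 with ⟨rfl, rfl⟩ | ⟨rfl, rfl⟩ | ⟨rfl, rfl⟩ <;> rcases h3 with rfl | rfl <;>
    rcases h4 with rfl | rfl <;> first | decide | omega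

theorem O2_cases (x : O 2) : x = w0 ∨ x = w1 ∨ x = w2 ∨ x = e01 ∨ x = e02 ∨ x = e12 ∨
    x = p012 ∨ x = top2 := by
  have e : ∀ (y : O 2) (a b c d e f : ℕ), (a = y.coef false {0} ∧ b = y.coef false {1} ∧
      c = y.coef true {1} ∧ d = y.coef true {2} ∧ e = y.coef false {0, 2} ∧
      f = y.coef false {0, 1, 2}) → (x.coef false {0} = a ∧ x.coef false {1} = b ∧
      x.coef true {1} = c ∧ x.coef true {2} = d ∧ x.coef false {0, 2} = e ∧
      x.coef false {0, 1, 2} = f) → x = y := by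
    rintro y _ _ _ _ _ _ ⟨rfl, rfl, rfl, rfl, rfl, rfl⟩ h
    have h1 := eqs_det ⟨O2_eqs x false, O2_eqs x true⟩ ⟨O2_eqs y false, O2_eqs y true⟩ h
    refine O2_ext fun a => ?_
    cases a
    · exact h1.1
    · exact h1.2
  exact (eqs_cases ⟨O2_eqs x false, O2_eqs x true⟩).imp (e w0 _ _ _ _ _ _ (by decide +kernel))
    (.imp (e w1 _ _ _ _ _ _ (by decide +kernel)) (.imp (e w2 _ _ _ _ _ _ (by decide +kernel))
    (.imp (e e01 _ _ _ _ _ _ (by decide +kernel)) (.imp (e e02 _ _ _ _ _ _ (by decide +kernel))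
    (.imp (e e12 _ _ _ _ _ _ (by decide +kernel)) (.imp (e p012 _ _ _ _ _ _ (by decide +kernel))
    (e top2 _ _ _ _ _ _ (by decide +kernel))))))))

variable {N : NCat 1 ⥤ SSet.{0}} (E : Ev N) {X : NCat 1}

theorem d_one (a : Bool) (x : X.C) : X.d a 1 x = x := by
  have h := X.dim 1 x (by simp)
  have h1 := X.dd a false 1 1 x
  rwa [if_neg (lt_irrefl 1), h] at h1

theorem tri (s : Δ[2] ⟶ N.obj X) : E.ev X 2 s top2 = E.ev X 2 s e02 ∧
    E.ev X 2 s e02 = X.cmp 0 (E.ev X 2 s e01) (E.ev X 2 s e12) := by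
  have hs := E.simp X 2 s
  have h1 := hs.1 false 1 _ _ bd_top2_s
  have h2 := hs.1 true 1 _ _ bd_top2_t
  rw [d_one] at h1 h2
  exact ⟨h1.symm, h1.trans (h2.symm.trans (hs.cmp cmp_p012))⟩

theorem two_ext (s s' : Δ[2] ⟶ N.obj X)
    (h : ∀ θ : ⦋1⦌ ⟶ ⦋2⦌, E.ev X 1 (SSet.stdSimplex.map θ ≫ s) top1 = E.ev X 1 (SSet.stdSimplex.map θ ≫ s') top1) : s = s' := by
  have hp : ∀ (θ : ⦋1⦌ ⟶ ⦋2⦌) y, Push θ top1 y → E.ev X 2 s y = E.ev X 2 s' y := fun θ y hy =>
    (E.push _ _ _ θ s _ _ hy).symm.trans ((h θ).trans (E.push _ _ _ θ s' _ _ hy))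
  have h01 := hp _ _ push_e01
  have h02 := hp _ _ push_e02
  have h12 := hp _ _ push_e12
  refine E.inj _ _ _ _ fun x => ?_
  rcases O2_cases x with rfl | rfl | rfl | rfl | rfl | rfl | rfl | rfl
  · exact hp (hm ![0, 0] (by decide)) _ (by decide +kernel)
  · exact hp (hm ![1, 1] (by decide)) _ (by decide +kernel)
  · exact hp (hm ![2, 2] (by decide)) _ (by decide +kernel)
  · exact h01
  · exact h02
  · exact h12
  · rw [(E.simp X 2 s).cmp cmp_p012, (E.simp X 2 s').cmp cmp_p012, h01, h12]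
  · rw [(tri E s).1, (tri E s').1, h02]

/-- nonempty subsets of a simplex -/
abbrev Ch (m : ℕ) : Type := PartialOrder.NonemptyFiniteChains (ULift.{0} (Fin (m + 1)))

theorem nerve_ext {Q : Type} [PartialOrder Q] {p : SimplexCategoryᵒᵖ} {x y : (nerve Q).obj p}
    (h : ∀ t, x.obj t = y.obj t) : x = y :=
  CategoryTheory.Functor.ext h fun _ _ _ => Subsingleton.elim _ _

/-- the simplex of the nerve given by a monotone map -/
noncomputable def smp {Q : Type} [PartialOrder Q] {d : ℕ} (f : Fin (d + 1) → Q)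
    (hf : Monotone f) : Δ[d] ⟶ nerve Q := SSet.yonedaEquiv.symm hf.functor

theorem sm_smp {Q : Type} [PartialOrder Q] {d e : ℕ} (θ : ⦋e⦌ ⟶ ⦋d⦌) {f : Fin (d + 1) → Q}
    (hf : Monotone f) {g : Fin (e + 1) → Q} (hg : Monotone g)
    (h : ∀ t, f (θ.toOrderHom t) = g t) : SSet.stdSimplex.map θ ≫ smp f hf = smp g hg :=
  (SSet.yonedaEquiv_symm_naturality_left _ _).trans
    (congrArg SSet.yonedaEquiv.symm (nerve_ext h))

/-- the subdivision of a simplex -/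
noncomputable def sdI (m : ℕ) : SSet.sd.obj Δ[m] ≅ nerve (Ch m) :=
  SSet.stdSimplex.sdIso.app ⦋m⦌

noncomputable def nm {k m : ℕ} (θ : ⦋k⦌ ⟶ ⦋m⦌) : nerve (Ch k) ⟶ nerve (Ch m) :=
  SimplexCategory.sd.map θ

theorem sdI_nat {k m : ℕ} (θ : ⦋k⦌ ⟶ ⦋m⦌) :
    SSet.sd.map (SSet.stdSimplex.map θ) ≫ (sdI m).hom = (sdI k).hom ≫ nm θ :=
  SSet.stdSimplex.sdIso.hom.naturality θ

theorem mem_nm {k m : ℕ} (θ : ⦋k⦌ ⟶ ⦋m⦌) {p : SimplexCategoryᵒᵖ} (x : (nerve (Ch k)).obj p)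
    (t : Fin (p.unop.len + 1)) (y : ULift (Fin (m + 1))) :
    y ∈ (((nm θ).app p x).obj t).finset ↔
      ∃ z ∈ (x.obj t).finset, ULift.up (θ.toOrderHom z.down) = y :=
  PartialOrder.NonemptyFiniteChains.mem_map_iff _ _ _

/-- the chain given by a nonempty subset -/
def ch {m : ℕ} (s : Finset (ULift.{0} (Fin (m + 1)))) (h : s.Nonempty) : Ch m :=
  ⟨s, h, fun a b => le_total a b⟩

def tp : Ch 2 := ch Finset.univ Finset.univ_nonempty

def c0 : Ch 2 := ch {⟨0⟩} (Finset.singleton_nonempty _)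

theorem le_tp (u : Ch 2) : u ≤ tp := Finset.subset_univ _

theorem ne_tp {u : Ch 2} (h : u.finset.card < 3) : u ≠ tp := by
  rintro rfl
  revert h
  decide

theorem exists_notMem {u : Ch 2} (h : u ≠ tp) : ∃ i : Fin 3, ULift.up i ∉ u.finset := by
  by_contra h1
  push Not at h1
  exact h (le_antisymm (le_tp u) fun x _ => h1 x.down)

open Classical in
noncomputable def χ (u : Ch 2) : Fin 2 := if u = tp then 1 else 0

theorem χ_mono : Monotone χ := by
  intro u v h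
  unfold χ
  split_ifs with h1 h2
  · rfl
  · exact (h2 (le_antisymm (le_tp v) (h1 ▸ h))).elim
  · exact Fin.zero_le _
  · rfl

noncomputable def q' : nerve (Ch 2) ⟶ Δ[1] where
  app p := TypeCat.ofHom fun x => SSet.stdSimplex.objEquiv.symm
    (SimplexCategory.Hom.mk ⟨fun t => χ (x.obj t), fun _ _ h => χ_mono (x.monotone h)⟩)

theorem mono2 {Q : Type} [PartialOrder Q] {u v : Q} (h : u ≤ v) : Monotone ![u, v] :=
  Fin.monotone_iff_le_succ.2 fun i => by fin_cases i; exact h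

theorem mono3 {Q : Type} [PartialOrder Q] {u v w : Q} (h : u ≤ v) (h' : v ≤ w) :
    Monotone ![u, v, w] :=
  Fin.monotone_iff_le_succ.2 fun i => by
    fin_cases i
    · exact h
    · exact h'

theorem mono1 {Q : Type} [PartialOrder Q] (u : Q) : Monotone ![u] :=
  Subsingleton.monotone (α := Fin 1) _

noncomputable def ρ : Δ[1] ⟶ nerve (Ch 2) := smp ![c0, tp] (mono2 (le_tp _))

theorem c0_ne : c0 ≠ tp := ne_tp (by decide)

theorem ρ_q' : ρ ≫ q' = 𝟙 _ := by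
  refine (SSet.yonedaEquiv_symm_comp _ _).trans ?_
  apply SSet.yonedaEquiv.injective
  rw [Equiv.apply_symm_apply]
  apply SSet.stdSimplex.objEquiv.injective
  refine hm_ext fun i => ?_
  fin_cases i
  · exact if_neg c0_ne
  · exact if_pos rfl

theorem nm_q' (i : Fin 3) : nm (SimplexCategory.δ i) ≫ q' =
    SSet.const (SSet.stdSimplex.obj₀Equiv.symm 0) := by
  ext p x
  apply SSet.stdSimplex.objEquiv.injective
  ext t : 3
  refine if_neg fun h => ?_
  have h1 : ULift.up i ∈ (((nm (SimplexCategory.δ i)).app p x).obj t).finset := by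
    have h2 : ((nm (SimplexCategory.δ i)).app p x).obj t = tp := h
    rw [h2]
    exact Finset.mem_univ _
  obtain ⟨z, -, hz⟩ := (mem_nm _ x t _).1 h1
  exact Fin.succAbove_ne i z.down (congrArg ULift.down hz)

theorem via_face {d : ℕ} {f : Fin (d + 1) → Ch 2} (hf : Monotone f) (i : Fin 3)
    (h : ∀ t, ULift.up i ∉ (f t).finset) :
    ∃ s : Δ[d] ⟶ nerve (Ch 1), smp f hf = s ≫ nm (SimplexCategory.δ i) := by
  classical
  have hne : ∀ t, (Finset.univ.filter fun j : ULift.{0} (Fin 2) =>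
      ULift.up (i.succAbove j.down) ∈ (f t).finset).Nonempty := fun t => by
    obtain ⟨a, ha⟩ := (f t).nonempty
    obtain ⟨j, hj⟩ := Fin.exists_succAbove_eq (x := a.down) (y := i)
      (fun e => h t (by rw [← e]; exact ha))
    exact ⟨⟨j⟩, Finset.mem_filter.2 ⟨Finset.mem_univ _, by rw [hj]; exact ha⟩⟩
  refine ⟨smp (fun t => ch _ (hne t)) fun t t' htt j hj => Finset.mem_filter.2
    ⟨Finset.mem_univ _, hf htt (Finset.mem_filter.1 hj).2⟩, ?_⟩
  refine Eq.trans ?_ (SSet.yonedaEquiv_symm_comp _ _).symm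
  refine congrArg SSet.yonedaEquiv.symm (nerve_ext (Q := Ch 2) (p := op ⦋d⦌) fun t => ?_)
  ext y
  refine Iff.trans ?_ (mem_nm _ _ t y).symm
  constructor
  · intro hy
    obtain ⟨j, hj⟩ := Fin.exists_succAbove_eq (x := y.down) (y := i)
      (fun e => h t (by rw [← e]; exact hy))
    exact ⟨⟨j⟩, Finset.mem_filter.2 ⟨Finset.mem_univ _, by rw [hj]; exact hy⟩,
      congrArg ULift.up hj⟩
  · rintro ⟨z, hz, rfl⟩
    exact (Finset.mem_filter.1 hz).2

section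

variable (G : nerve (Ch 2) ⟶ N.obj X) (p0 : Δ[0] ⟶ N.obj X)
  (hG : ∀ i : Fin 3, nm (SimplexCategory.δ i) ≫ G = toPt _ ≫ p0)

/-- the image of an edge -/
noncomputable def ed {u v : Ch 2} (h : u ≤ v) : X.C := E.ev X 1 (smp ![u, v] (mono2 h) ≫ G) top1

include hG

theorem smp_G {d : ℕ} {f : Fin (d + 1) → Ch 2} (hf : Monotone f) (h : f (Fin.last d) ≠ tp) :
    smp f hf ≫ G = toPt _ ≫ p0 := by
  obtain ⟨i, hi⟩ := exists_notMem h
  obtain ⟨s, hs⟩ := via_face hf i fun t ht => hi (hf (Fin.le_last t) ht)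
  rw [hs, Category.assoc, hG, ← Category.assoc, toPt_ext (s ≫ _) (toPt _)]

theorem ed_proper {u v : Ch 2} (h : u ≤ v) (hv : v ≠ tp) : ed E G h = E.ev X 0 p0 v0 := by
  unfold ed
  rw [smp_G G p0 hG _ hv, toPt_ext (toPt _) (SSet.stdSimplex.map (SimplexCategory.σ 0))]
  exact E.push _ _ _ _ _ _ _ push_v0

omit hG in
theorem ed_tri {u v w : Ch 2} (h : u ≤ v) (h' : v ≤ w) :
    ed E G (h.trans h') = X.cmp 0 (ed E G h) (ed E G h') := by
  have h1 := (tri E (smp ![u, v, w] (mono3 h h') ≫ G)).2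
  rw [← E.push _ _ _ _ _ _ _ push_e02, ← E.push _ _ _ _ _ _ _ push_e01,
    ← E.push _ _ _ _ _ _ _ push_e12, ← Category.assoc, ← Category.assoc, ← Category.assoc,
    sm_smp _ _ (mono2 (h.trans h')) (fun t => by fin_cases t <;> rfl),
    sm_smp _ _ (mono2 h) (fun t => by fin_cases t <;> rfl),
    sm_smp _ _ (mono2 h') (fun t => by fin_cases t <;> rfl)] at h1
  exact h1

theorem ed_tp {u v : Ch 2} (h : u ≤ v) (hv : v ≠ tp) : ed E G (le_tp u) = ed E G (le_tp v) := by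
  have h1 := ed_tri E G h (le_tp v)
  rw [ed_proper E G p0 hG h hv] at h1
  have h2 : X.d false 0 (ed E G (le_tp v)) = E.ev X 0 p0 v0 := by
    unfold ed
    rw [← (E.simp X 1 _).1 false 0 top1 b0 (by decide +kernel),
      ← E.push _ _ _ (SimplexCategory.δ 1) _ v0 b0 (by decide +kernel), ← Category.assoc,
      sm_smp _ _ (mono1 v) (fun t => by fin_cases t; rfl),
      smp_G G p0 hG _ hv, toPt_ext (toPt _) (𝟙 _), Category.id_comp]
  rw [h1, ← h2, X.idl]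

theorem ed_c0 {u : Ch 2} (hu : u ≠ tp) : ed E G (le_tp u) = ed E G (le_tp c0) := by
  classical
  obtain ⟨a, ha⟩ := u.nonempty
  let v : Ch 2 := ch {a} (Finset.singleton_nonempty _)
  let w : Ch 2 := ch {⟨0⟩, a} (Finset.insert_nonempty _ _)
  have hw : w ≠ tp := ne_tp (lt_of_le_of_lt Finset.card_le_two (by omega))
  rw [← ed_tp E G p0 hG (u := v) (Finset.singleton_subset_iff.2 ha) hu,
    ed_tp E G p0 hG (u := v) (Finset.singleton_subset_iff.2 (by simp [w, ch])) hw,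
    ed_tp E G p0 hG (u := c0) (Finset.singleton_subset_iff.2 (by simp [w, ch])) hw]

include E in
theorem G_eq : q' ≫ ρ ≫ G = G := by
  have hκ : Monotone fun u => ![c0, tp] (χ u) := (mono2 (le_tp c0)).comp χ_mono
  have h1 : ∀ {d : ℕ} {f : Fin (d + 1) → Ch 2} (hf : Monotone f),
      smp f hf ≫ q' ≫ ρ = smp (fun t => ![c0, tp] (χ (f t))) (hκ.comp hf) := fun hf => by
    rw [← Category.assoc]
    exact (congrArg (· ≫ ρ) (SSet.yonedaEquiv_symm_comp _ _)).trans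
      ((SSet.yonedaEquiv_symm_comp _ _).trans (congrArg SSet.yonedaEquiv.symm
        (nerve_ext fun _ => rfl)))
  have h2 : ∀ {u v : Ch 2} (h : u ≤ v), ed E G (hκ h) = ed E G h := fun {u v} h => by
    have e : ∀ {u v u' v' : Ch 2} (h : u ≤ v) (h' : u' ≤ v'), u = u' → v = v' →
        ed E G h = ed E G h' := by
      rintro _ _ _ _ _ _ rfl rfl
      rfl
    have k0 : ∀ {u : Ch 2}, u ≠ tp → ![c0, tp] (χ u) = c0 := fun hu => by
      rw [χ, if_neg hu]
      rfl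
    have k1 : ![c0, tp] (χ tp) = tp := by
      rw [χ, if_pos rfl]
      rfl
    by_cases hv : v = tp
    · subst hv
      by_cases hu : u = tp
      · subst hu
        exact e _ _ k1 k1
      · exact (e _ _ (k0 hu) k1).trans (ed_c0 E G p0 hG hu).symm
    · rw [ed_proper E G p0 hG h hv, ed_proper E G p0 hG _ ((k0 hv).trans_ne c0_ne)]
  have h3 : ∀ s : Δ[2] ⟶ nerve (Ch 2), s ≫ q' ≫ ρ ≫ G = s ≫ G := fun s => by
    obtain ⟨x, rfl⟩ := SSet.yonedaEquiv.symm.surjective s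
    have hf : Monotone x.obj := x.monotone
    have e : SSet.yonedaEquiv.symm x = smp x.obj hf :=
      congrArg SSet.yonedaEquiv.symm (nerve_ext fun _ => rfl)
    rw [e, ← Category.assoc q', ← Category.assoc, h1]
    refine two_ext E _ _ fun θ => ?_
    have hθ : x.obj (θ.toOrderHom 0) ≤ x.obj (θ.toOrderHom 1) :=
      hf (θ.toOrderHom.monotone (Fin.zero_le _))
    rw [← Category.assoc, ← Category.assoc,
      sm_smp _ _ (mono2 (hκ hθ)) (fun t => by fin_cases t <;> rfl),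
      sm_smp _ _ (mono2 hθ) (fun t => by fin_cases t <;> rfl)]
    exact h2 hθ
  ext ⟨⟨m⟩⟩ x
  obtain ⟨d, f, _, ⟨y, hy⟩, rfl⟩ := (nerve (Ch 2)).exists_nonDegenerate x
  have hd : d ≤ 2 := by
    have h4 := (PartialOrder.mem_nerve_nonDegenerate_iff_strictMono y).1 hy
    have h5 : ∀ t : Fin (d + 1), t.val < (y.obj t).finset.card := by
      intro t
      induction t using Fin.induction with
      | zero => exact (y.obj 0).nonempty.card_pos
      | succ t ih =>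
        have h6 := Finset.card_lt_card (h4 (Fin.castSucc_lt_succ (i := t)))
        simp only [Fin.val_succ, Fin.val_castSucc] at ih ⊢
        omega
    have h6 := h5 (Fin.last d)
    have h7 := (y.obj (Fin.last d)).finset.card_le_univ
    simp only [Fin.val_last, Fintype.card_ulift, Fintype.card_fin] at h6 h7
    omega
  let j : ⦋d⦌ ⟶ ⦋2⦌ := hm (Fin.castLE (by omega)) fun _ _ h => h
  let r : ⦋2⦌ ⟶ ⦋d⦌ := hm (fun t => ⟨min t d, by omega⟩) fun a b h =>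
    show min a.val d ≤ min b.val d from min_le_min_right _ h
  have hjr : j ≫ r = 𝟙 _ := hm_ext fun t => Fin.ext (min_eq_left (Nat.lt_succ_iff.1 t.2))
  have h9 : SSet.stdSimplex.map (f ≫ j) ≫ SSet.stdSimplex.map r ≫ SSet.yonedaEquiv.symm y =
      SSet.yonedaEquiv.symm ((nerve (Ch 2)).map f.op y) := by
    rw [← Category.assoc, ← smc, Category.assoc f, hjr, Category.comp_id,
      SSet.yonedaEquiv_symm_naturality_left]
  have h8 := SSet.stdSimplex.map (f ≫ j) ≫= h3 (SSet.stdSimplex.map r ≫ SSet.yonedaEquiv.symm y)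
  rw [← Category.assoc (SSet.stdSimplex.map (f ≫ j)), ← Category.assoc (SSet.stdSimplex.map (f ≫ j)) _ G, h9,
    SSet.yonedaEquiv_symm_comp, SSet.yonedaEquiv_symm_comp] at h8
  exact SSet.yonedaEquiv.symm.injective h8

end

include E in
/-- the subdivided sphere and `Δ[1]` have the same maps to nerves of `1`-categories -/
theorem exists_qr : ∃ (q : SSet.sd.obj S2 ⟶ Δ[1]) (r : Δ[1] ⟶ SSet.sd.obj S2), r ≫ q = 𝟙 _ ∧
    ∀ (X : NCat 1) (g : SSet.sd.obj S2 ⟶ N.obj X), q ≫ r ≫ g = g := by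
  obtain ⟨q0, hq0⟩ := S2.exists_desc (SSet.sdExAdjunction.homEquiv _ _ ((sdI 2).hom ≫ q'))
    (SSet.sdExAdjunction.homEquiv _ _ (SSet.const (SSet.stdSimplex.obj₀Equiv.symm 0))) fun i => by
      rw [← Adjunction.homEquiv_naturality_left, ← Adjunction.homEquiv_naturality_left,
        ← Category.assoc, sdI_nat, Category.assoc, nm_q', SSet.comp_const, SSet.comp_const]
  have hq : SSet.sd.map S2.π ≫ (SSet.sdExAdjunction.homEquiv _ _).symm q0 = (sdI 2).hom ≫ q' := by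
    rw [← Adjunction.homEquiv_naturality_left_symm, hq0, Equiv.symm_apply_apply]
  refine ⟨(SSet.sdExAdjunction.homEquiv _ _).symm q0, ρ ≫ (sdI 2).inv ≫ SSet.sd.map S2.π, ?_,
    fun X g => ?_⟩
  · rw [Category.assoc, Category.assoc, hq, Iso.inv_hom_id_assoc, ρ_q']
  · have h0 : toPt (nerve (Ch 0)) ≫ smp ![ch Finset.univ Finset.univ_nonempty]
        (mono1 _) = 𝟙 _ := by
      ext p x t y
      obtain ⟨a, ha⟩ := (x.obj t).nonempty
      obtain rfl : y = a := ULift.ext _ _ (Subsingleton.elim (α := Fin 1) _ _)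
      exact ⟨fun _ => ha, fun _ => Finset.mem_univ _⟩
    have h1 := G_eq E ((sdI 2).inv ≫ SSet.sd.map S2.π ≫ g)
      (smp ![ch Finset.univ Finset.univ_nonempty] (mono1 _) ≫ (sdI 0).inv ≫
        SSet.sd.map S2.pt ≫ g) fun i => by
        rw [← cancel_epi (sdI 1).hom, ← Category.assoc, ← sdI_nat, Category.assoc,
          Iso.hom_inv_id_assoc, ← Category.assoc, ← Functor.map_comp, S2.face, Functor.map_comp,
          toPt_ext (toPt (nerve (Ch 1))) (nm (SimplexCategory.σ 0) ≫ toPt _), Category.assoc,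
          Category.assoc, ← Category.assoc (toPt _), h0, Category.id_comp,
          ← Category.assoc (sdI 1).hom, ← sdI_nat, Category.assoc, Iso.hom_inv_id_assoc]
    rw [← cancel_epi (SSet.sd.map S2.π), ← Category.assoc, hq, ← cancel_epi (sdI 2).inv,
      Category.assoc, Iso.inv_hom_id_assoc, Category.assoc, Category.assoc]
    exact h1

end Vale.Agent.P213.X59
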