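import Vale.Agent.N213X.Bub

/-!
For `n ≥ 2` the unit `S ⟶ N c S` of the sphere `S = Δ[2] / ∂Δ[2]` is not a weak equivalence.
-/

open CategoryTheory Limits Simplicial Opposite

namespace Vale.Agent.P213.X59

open SX

variable {n : ℕ∞}

theorem fun_ext {X Y : NCat n} {f g : X ⟶ Y} (h : ∀ x, f.toFun x = g.toFun x) : f = g := by
  obtain ⟨f, _⟩ := f
  obtain ⟨g, _⟩ := g
  obtain rfl : f = g := funext h
  rfl

section EH

variable {X : NCat n} {x0 : X.C}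

/-- `2`-cells from the identity of `x0` to itself -/
def Bub (x0 x : X.C) : Prop := (∀ a, X.d a 1 x = x0) ∧ X.d false 2 x = x

theorem d_pt (h0 : X.d false 0 x0 = x0) (a : Bool) (k : ℕ) : X.d a k x0 = x0 := by
  have h := X.dd a false k 0 x0
  rwa [h0, if_neg (Nat.not_lt_zero k)] at h

theorem Bub.d0 (h0 : X.d false 0 x0 = x0) {x : X.C} (h : Bub x0 x) (a : Bool) :
    X.d a 0 x = x0 := by
  have h1 := X.dd a false 0 1 x
  rw [if_pos Nat.one_pos, h.1, d_pt h0] at h1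
  exact h1.symm

theorem Bub.dlt (h0 : X.d false 0 x0 = x0) {x : X.C} (h : Bub x0 x) (a : Bool) {k : ℕ}
    (hk : k < 2) : X.d a k x = x0 := by
  obtain rfl | rfl : k = 0 ∨ k = 1 := by omega
  · exact h.d0 h0 a
  · exact h.1 a

theorem Bub.dge {x : X.C} (h : Bub x0 x) (a : Bool) {k : ℕ} (hk : ¬k < 2) : X.d a k x = x := by
  have h1 := X.dd a false k 2 x
  rwa [if_neg hk, h.2] at h1

theorem Bub.idl (h0 : X.d false 0 x0 = x0) {x : X.C} (h : Bub x0 x) {k : ℕ} (hk : k < 2) :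
    X.cmp k x0 x = x := by
  have h1 := X.idl k x
  rwa [h.dlt h0 false hk] at h1

theorem Bub.idr (h0 : X.d false 0 x0 = x0) {x : X.C} (h : Bub x0 x) {k : ℕ} (hk : k < 2) :
    X.cmp k x x0 = x := by
  have h1 := X.idr k x
  rwa [h.dlt h0 true hk] at h1

theorem bub_pt (h0 : X.d false 0 x0 = x0) : Bub x0 x0 := ⟨fun a => d_pt h0 a 1, d_pt h0 _ _⟩

theorem Bub.cmp (h0 : X.d false 0 x0 = x0) {x y : X.C} (hx : Bub x0 x) (hy : Bub x0 y) :
    Bub x0 (X.cmp 0 x y) := by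
  have hc : X.d true 0 x = X.d false 0 y := (hx.d0 h0 _).trans (hy.d0 h0 _).symm
  refine ⟨fun a => ?_, ?_⟩
  · rw [X.dcomp a 1 0 x y Nat.one_pos hc, hx.1, hy.1, (bub_pt h0).idl h0 Nat.two_pos]
  · rw [X.dcomp false 2 0 x y Nat.two_pos hc, hx.2, hy.2]

/-- Eckmann-Hilton -/
theorem Bub.eh (h0 : X.d false 0 x0 = x0) {x y : X.C} (hx : Bub x0 x) (hy : Bub x0 y) :
    X.cmp 1 x y = X.cmp 0 x y := by
  have h := X.inter 0 1 x x0 x0 y Nat.one_pos (by rw [hx.1, d_pt h0]) (by rw [hy.1, d_pt h0])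
    (by rw [hx.d0 h0, d_pt h0])
  rw [hx.idr h0 Nat.one_lt_two, hy.idl h0 Nat.one_lt_two, hx.idr h0 Nat.two_pos,
    hy.idl h0 Nat.two_pos] at h
  exact h.symm

/-- powers of a bubble -/
def pw (x0 α : X.C) : ℕ → X.C
  | 0 => x0
  | k + 1 => X.cmp 0 (pw x0 α k) α

theorem Bub.pw (h0 : X.d false 0 x0 = x0) {α : X.C} (h : Bub x0 α) (k : ℕ) :
    Bub x0 (pw x0 α k) := by
  induction k with
  | zero => exact bub_pt h0
  | succ k ih => exact ih.cmp h0 h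

theorem Bub.pw_add (h0 : X.d false 0 x0 = x0) {α : X.C} (h : Bub x0 α) (k l : ℕ) :
    X59.pw x0 α (k + l) = X.cmp 0 (X59.pw x0 α k) (X59.pw x0 α l) := by
  induction l with
  | zero => exact ((h.pw h0 k).idr h0 Nat.two_pos).symm
  | succ l ih =>
    change X.cmp 0 (X59.pw x0 α (k + l)) α = X.cmp 0 _ (X.cmp 0 (X59.pw x0 α l) α)
    rw [ih, X.asc 0 _ _ _ (by rw [(h.pw h0 k).d0 h0, (h.pw h0 l).d0 h0])
      (by rw [(h.pw h0 l).d0 h0, h.d0 h0])]

/-- the functor classifying a bubble -/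
def Bub.cl (hn : 2 ≤ n) (h0 : X.d false 0 x0 = x0) {α : X.C} (h : Bub x0 α) : B2 hn ℕ ⟶ X where
  toFun := X59.pw x0 α
  isFun := ⟨fun a k (x : ℕ) => by
      change X59.pw x0 α (if k < 2 then 0 else x) = _
      split_ifs with hk
      · exact ((h.pw h0 x).dlt h0 a hk).symm
      · exact ((h.pw h0 x).dge a hk).symm,
    fun k (x y : ℕ) hxy => by
      change X59.pw x0 α (if k < 2 then x + y else x) = _
      change (if k < 2 then 0 else x) = (if k < 2 then 0 else y) at hxy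
      split_ifs at hxy ⊢ with hk
      · rw [h.pw_add h0]
        obtain rfl | rfl : k = 0 ∨ k = 1 := by omega
        · rfl
        · exact ((h.pw h0 x).eh h0 (h.pw h0 y)).symm
      · subst hxy
        have h1 := X.idl k (X59.pw x0 α x)
        rw [(h.pw h0 x).dge false hk] at h1
        exact h1.symm⟩

theorem Bub.cl_comp (hn : 2 ≤ n) (h0 : X.d false 0 x0 = x0) {α : X.C} (h : Bub x0 α)
    (φ : X ⟶ B2 hn ℕ) (hφ : φ.toFun α = (1 : ℕ)) : h.cl hn h0 ≫ φ = 𝟙 _ := by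
  refine fun_ext fun (k : ℕ) => ?_
  change φ.toFun (X59.pw x0 α k) = k
  induction k with
  | zero =>
    change φ.toFun x0 = _
    rw [← h0, φ.isFun.1]
    rfl
  | succ k ih =>
    change φ.toFun (X.cmp 0 _ α) = _
    rw [φ.isFun.2 0 _ _ (by rw [(h.pw h0 k).d0 h0, h.d0 h0]), ih, hφ]
    rfl

end EH

variable {N : NCat n ⥤ SSet.{0}} (E : Ev N)


theorem bub_of_map {X : NCat n} (g : S2 ⟶ N.obj X) :
    X.d false 0 (E.ev X 0 (S2.pt ≫ g) v0) = E.ev X 0 (S2.pt ≫ g) v0 ∧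
      Bub (E.ev X 0 (S2.pt ≫ g) v0) (E.ev X 2 (S2.π ≫ g) top2) := by
  have h0 := ((E.simp X 0 (S2.pt ≫ g)).1 false 0 v0 v0 bd_v0).symm
  have he : ∀ (i : Fin 3) (e : O 2), Push (SimplexCategory.δ i) top1 e →
      E.ev X 2 (S2.π ≫ g) e = E.ev X 0 (S2.pt ≫ g) v0 := fun i e h => by
    rw [← E.push X 2 1 _ _ top1 e h, ← Category.assoc, S2.face, Category.assoc,
      E.push X 0 1 _ _ top1 v0 push_v0]
  have hs := E.simp X 2 (S2.π ≫ g)
  refine ⟨h0, fun a => ?_, (hs.1 false 2 _ _ bd_top2).symm⟩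
  cases a
  · rw [← hs.1 false 1 _ _ bd_top2_s, he 1 _ push_e02]
  · rw [← hs.1 true 1 _ _ bd_top2_t, hs.cmp cmp_p012, he 2 _ push_e01, he 0 _ push_e12,
      (bub_pt h0).idl h0 Nat.two_pos]

include E in
theorem not_whe_unit (hn : 2 ≤ n) {c : SSet.{0} ⥤ NCat n} (adj : c ⊣ N) :
    ¬SX.whe (adj.unit.app S2) := by
  intro h
  obtain ⟨ι, hι⟩ := exists_iota hn E
  have hsub : ∀ s s' : Δ[1] ⟶ N.obj (B2 hn ℕ), s = s' := fun s s' =>
    E.inj _ _ _ _ fun x => (val_one hn E s x).trans (val_one hn E s' x).symm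
  obtain ⟨f, hf⟩ := S2.exists_desc ι (SSet.stdSimplex.map (hm ![0] (by decide)) ≫ ι) fun _ => hsub _ _
  let φ : c.obj S2 ⟶ B2 hn ℕ := (adj.homEquiv _ _).symm f
  have hφ : adj.unit.app S2 ≫ N.map φ = f :=
    (adj.homEquiv_unit _ _ φ).symm.trans (Equiv.apply_symm_apply _ _)
  obtain ⟨h0, hb⟩ := bub_of_map E (X := c.obj S2) (adj.unit.app S2)
  have h1 := hb.cl_comp hn h0 φ (by
    rw [← E.nat, Category.assoc, hφ, hf]
    exact hι)
  refine not_P_W hn E (((P_of_epi (j := 3) (by omega) S2.π).of_whe _ h).of_retract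
    (N.map (hb.cl hn h0)) (N.map φ) ?_)
  exact (N.map_comp _ _).symm.trans ((congrArg N.map h1).trans (N.map_id _))

end Vale.Agent.P213.X59
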